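import Vale.Agent.P141.H352.Flow

/-!
# P141, line (A): the Abel line with arbitrary kernels

`abelK_id` : the node kernels `p (k + 1) (c (k + 1))` of the flow piece are compared with any
sequence `κ k` (for instance a smooth kernel of `c' - x1 - x2 - x3` of length `2 ^ k`); one near
term, with the kernel `p (k + 1) (c (k + 1)) - κ k`.
-/

namespace Vale.Agent.P141.H352

open Finset
open Vale.Agent.P141.PL

noncomputable section

/-- **The Abel line with kernels `κ`, exact.** -/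
theorem abelK_id (N : ℕ) (M : Pt) (ν κ : ℕ → Pt → ℝ) (G : ℕ → ℕ → Pt → ℝ) (K : ℕ) :
    ∑ k ∈ range K, In N M (ν (k + 1)) (fun x => G k (k + 1) x - G (k + 1) (k + 1) x) =
      In N M (κ 0) (G 0 0) - In N M (κ K) (G K K)
      - ∑ k ∈ range K, In N M (κ k) (fun x => G k k x - G k (k + 1) x)
      - ∑ k ∈ range K, In N M (fun x => κ k x - κ (k + 1) x) (G (k + 1) (k + 1))
      + ∑ k ∈ range K, In N M (fun x => ν (k + 1) x - κ k x)
          (fun x => G k (k + 1) x - G (k + 1) (k + 1) x) := by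
  induction K with
  | zero => simp
  | succ K ih =>
    simp only [sum_range_succ]
    rw [ih]
    simp only [In_sub, In_ksub]
    ring

/-- **The Abel line with kernels `κ`, four absolute values.** -/
theorem abelK_le (N : ℕ) (M : Pt) (ν κ : ℕ → Pt → ℝ) (G : ℕ → ℕ → Pt → ℝ) (K : ℕ) :
    |∑ k ∈ range K, In N M (ν (k + 1)) (fun x => G k (k + 1) x - G (k + 1) (k + 1) x)| ≤
      |In N M (κ 0) (G 0 0)| + |In N M (κ K) (G K K)|
      + ∑ k ∈ range K, |In N M (κ k) (fun x => G k k x - G k (k + 1) x)|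
      + |∑ k ∈ range K, In N M (fun x => κ k x - κ (k + 1) x) (G (k + 1) (k + 1))|
      + ∑ k ∈ range K, |In N M (fun x => ν (k + 1) x - κ k x)
          (fun x => G k (k + 1) x - G (k + 1) (k + 1) x)| := by
  rw [abelK_id N M ν κ G K]
  have h1 := abs_sum_le_sum_abs (fun k => In N M (κ k) (fun x => G k k x - G k (k + 1) x))
    (range K)
  have h2 := abs_sum_le_sum_abs (fun k => In N M (fun x => ν (k + 1) x - κ k x)
    (fun x => G k (k + 1) x - G (k + 1) (k + 1) x)) (range K)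
  have t1 : ∀ a b c d e : ℝ, |a - b - c - d + e| ≤ |a| + |b| + |c| + |d| + |e| := by
    intro a b c d e
    refine (abs_add_le _ _).trans (add_le_add ?_ le_rfl)
    refine (abs_sub _ _).trans (add_le_add ?_ le_rfl)
    refine (abs_sub _ _).trans (add_le_add ?_ le_rfl)
    exact abs_sub _ _
  refine (t1 _ _ _ _ _).trans ?_
  linarith

/-! ### Forms `⟨c(x1,x3), q(x1,x2,x3)⟩`: the near term as two factors -/

/-- the `x2`-pairing of a kernel with a vector function, at fixed `(x1, x3)` -/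
def In2 {ι : Type*} (N : ℕ) (S : ℤ) (κ : Pt → ℝ) (q : Pt → ι → ℝ) (x1 x3 : ℤ) : ι → ℝ :=
  fun i => ∑ x2 ∈ iv N S, κ (x1, x2, x3) * q (x1, x2, x3) i

variable {ι : Type*} [Fintype ι]

theorem In_dot (N : ℕ) (M : Pt) (κ : Pt → ℝ) (w : ℤ → ℤ → ι → ℝ) (q : Pt → ι → ℝ) :
    In N M κ (fun x => w x.1 x.2.2 ⬝ᵥ q x) =
      ∑ x1 ∈ iv N M.1, ∑ x3 ∈ iv N M.2.2, w x1 x3 ⬝ᵥ In2 N M.2.1 κ q x1 x3 := by
  unfold In cb
  rw [sum_product]
  refine sum_congr rfl fun x1 _ => ?_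
  rw [sum_product, sum_comm]
  refine sum_congr rfl fun x3 _ => ?_
  unfold In2 dotProduct
  simp only [mul_sum]
  rw [sum_comm]
  refine sum_congr rfl fun i _ => sum_congr rfl fun x2 _ => ?_
  ring

/-- **Two factors.** -/
theorem near_two (N K : ℕ) (M : Pt) (κ : ℕ → Pt → ℝ) (w : ℕ → ℤ → ℤ → ι → ℝ)
    (q : ℕ → Pt → ι → ℝ) :
    ∑ k ∈ range K, |In N M (κ k) (fun x => w k x.1 x.2.2 ⬝ᵥ q k x)| ≤
      √(∑ k ∈ range K, ∑ x1 ∈ iv N M.1, ∑ x3 ∈ iv N M.2.2, w k x1 x3 ⬝ᵥ w k x1 x3) *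
      √(∑ k ∈ range K, ∑ x1 ∈ iv N M.1, ∑ x3 ∈ iv N M.2.2,
        In2 N M.2.1 (κ k) (q k) x1 x3 ⬝ᵥ In2 N M.2.1 (κ k) (q k) x1 x3) := by
  classical
  have e : ∀ f : ℕ → ℤ → ℤ → ℝ, ∑ k ∈ range K, ∑ x1 ∈ iv N M.1, ∑ x3 ∈ iv N M.2.2, f k x1 x3 =
      ∑ y ∈ range K ×ˢ (iv N M.1 ×ˢ iv N M.2.2), f y.1 y.2.1 y.2.2 := by
    intro f
    rw [sum_product]
    exact sum_congr rfl fun k _ => by rw [sum_product]
  have h1 : ∑ k ∈ range K, |In N M (κ k) (fun x => w k x.1 x.2.2 ⬝ᵥ q k x)| ≤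
      ∑ k ∈ range K, ∑ x1 ∈ iv N M.1, ∑ x3 ∈ iv N M.2.2,
        √(w k x1 x3 ⬝ᵥ w k x1 x3) *
          √(In2 N M.2.1 (κ k) (q k) x1 x3 ⬝ᵥ In2 N M.2.1 (κ k) (q k) x1 x3) := by
    refine sum_le_sum fun k _ => ?_
    rw [In_dot]
    refine (abs_sum_le_sum_abs _ _).trans (sum_le_sum fun x1 _ => ?_)
    refine (abs_sum_le_sum_abs _ _).trans (sum_le_sum fun x3 _ => ?_)
    rw [← Real.sqrt_mul (by
      unfold dotProduct
      exact sum_nonneg fun i _ => mul_self_nonneg _)]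
    refine Real.abs_le_sqrt ?_
    unfold dotProduct
    simp only [← pow_two]
    exact sum_mul_sq_le_sq_mul_sq _ _ _
  refine h1.trans ?_
  rw [e, e, e]
  have h2 := sum_mul_sq_le_sq_mul_sq (range K ×ˢ (iv N M.1 ×ˢ iv N M.2.2))
    (fun y => √(w y.1 y.2.1 y.2.2 ⬝ᵥ w y.1 y.2.1 y.2.2))
    (fun y => √(In2 N M.2.1 (κ y.1) (q y.1) y.2.1 y.2.2 ⬝ᵥ
      In2 N M.2.1 (κ y.1) (q y.1) y.2.1 y.2.2))
  have h3 : ∀ v : ι → ℝ, √(v ⬝ᵥ v) ^ 2 = v ⬝ᵥ v := fun v => Real.sq_sqrt (by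
    unfold dotProduct
    exact sum_nonneg fun i _ => mul_self_nonneg _)
  simp only [h3] at h2
  rw [← Real.sqrt_mul (sum_nonneg fun y _ => by
    unfold dotProduct
    exact sum_nonneg fun i _ => mul_self_nonneg _)]
  exact Real.le_sqrt_of_sq_le h2

end

end Vale.Agent.P141.H352
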