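import Vale.Agent.P141.H352.Near
import Vale.Agent.P141.H352.AbelK
import Vale.Agent.P141.H795.KFact
import Vale.Agent.P141.H652.PlaneR
import Vale.Agent.P141.H677.Fam

/-!
# P141, line (A): the near term of the Abel line in the form of plane sums

At fixed `x0`: `A z y` (`z = x3`, `y = x2`), `b x y` (`x = x1`).  The kernel
`p K (c K) - kp c' K` tested on `A z y • b x y` at fixed `(x, z)`.
-/

namespace Vale.Agent.P141.H352

open Finset Matrix
open Vale.Agent.P141.PL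
open Vale.Agent.P141.H795 (kp abs_KK KK_supp KK_sum)
open Vale.Agent.P141.H103 (qK)
open Vale.Agent.P141.H652 (GR)

noncomputable section

variable {κ : Type*} [Fintype κ]

/-- the product, zero outside the root of `y` -/
def fz (N : ℕ) (S : ℤ) (A : ℤ → ℤ → ℝ) (b : ℤ → ℤ → κ → ℝ) (z x : ℤ) (i : κ) (y : ℤ) : ℝ :=
  if y ∈ iv N S then A z y * b x y i else 0

/-- the means of the product, zero outside the root of `y` -/
def Vz (N : ℕ) (S : ℤ) (A : ℤ → ℤ → ℝ) (b : ℤ → ℤ → κ → ℝ) (z x : ℤ) (k : ℕ) (m : ℤ) : κ → ℝ :=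
  if m ∈ iv (N - k) S then qK A b z x k m else 0

theorem mem_root {N k : ℕ} (hk : k ≤ N) {S m y : ℤ} (hy : y ∈ iv k m) :
    y ∈ iv N S ↔ m ∈ iv (N - k) S := by
  rw [mem_iv] at hy
  rw [mem_iv, mem_iv, ← hy, ix_ix, Nat.add_sub_cancel' hk]

omit [Fintype κ] in
theorem Vz_mn {N k : ℕ} (hk : k ≤ N) (S : ℤ) (A : ℤ → ℤ → ℝ) (b : ℤ → ℤ → κ → ℝ) (z x m : ℤ)
    (i : κ) : Vz N S A b z x k m i = mn k (fz N S A b z x i) m := by
  unfold Vz mn fz
  split_ifs with h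
  · unfold H103.qK
    rw [Pi.smul_apply, smul_eq_mul, Finset.sum_apply]
    congr 1
    refine sum_congr rfl fun y hy => ?_
    rw [if_pos ((mem_root hk hy).2 h)]
    rfl
  · rw [Pi.zero_apply, sum_eq_zero fun y hy => if_neg fun h2 => h ((mem_root hk hy).1 h2),
      mul_zero]

omit [Fintype κ] in
theorem Vz_gh {N k : ℕ} (hk : k + 1 ≤ N) (S : ℤ) (A : ℤ → ℤ → ℝ) (b : ℤ → ℤ → κ → ℝ) (z x m : ℤ)
    (i : κ) : gh (k + 1) (fz N S A b z x i) m =
      if m ∈ iv (N - (k + 1)) S then H483.hd (qK A b z x) (k + 1) m i else 0 := by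
  rw [gh_two, ← Vz_mn (by omega), ← Vz_mn (by omega)]
  unfold Vz
  have e : N - k = 1 + (N - (k + 1)) := by omega
  have h1 : (2 * m ∈ iv (N - k) S ↔ m ∈ iv (N - (k + 1)) S) := by
    rw [mem_iv, mem_iv, e, ← ix_ix, show ix 1 (2 * m) = m by unfold ix; omega]
  have h2 : (2 * m + 1 ∈ iv (N - k) S ↔ m ∈ iv (N - (k + 1)) S) := by
    rw [mem_iv, mem_iv, e, ← ix_ix, show ix 1 (2 * m + 1) = m by unfold ix; omega]
  by_cases h : m ∈ iv (N - (k + 1)) S
  · rw [if_pos (h1.2 h), if_pos (h2.2 h), if_pos h]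
    unfold H483.hd
    rw [Nat.add_sub_cancel, Pi.smul_apply, Pi.sub_apply, smul_eq_mul]
  · rw [if_neg (fun h3 => h (h1.1 h3)), if_neg (fun h3 => h (h2.1 h3)), if_neg h]
    simp

/-! ### The kernel -/

/-- the kernel at fixed `(x, z)`, as a function of `y` -/
def kz (c' : ℤ) (K : ℕ) (z x y : ℤ) : ℝ := H795.KK K (c' - x - y - z)

theorem kz_eq (c' : ℤ) (K : ℕ) (z x y : ℤ) : kp c' K (x, y, z) = kz c' K z x y := rfl

/-- compatibility of the planes and of the tie -/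
def Cmp (E : ℕ) (c : ℕ → ℤ) (c' : ℤ) (K : ℕ) : Prop := |2 ^ K * c K - c'| ≤ E * 2 ^ K

theorem cell_bd (K : ℕ) (y : ℤ) : 2 ^ K * ix K y ≤ y ∧ y < 2 ^ K * ix K y + 2 ^ K := by
  have h : y ∈ iv K (ix K y) := (mem_iv).2 rfl
  unfold iv at h
  exact mem_Ico.1 h

/-- the support of the kernel lies in the window -/
theorem kz_supp {E K : ℕ} {c : ℕ → ℤ} {c' : ℤ} (hc : Cmp E c c' K) {z x y : ℤ}
    (h : kz c' K z x y ≠ 0) : ix K y ∈ wn (E + 6) (c K - ix K x - ix K z) := by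
  obtain ⟨h1, h2⟩ := KK_supp h
  unfold Cmp at hc
  rw [abs_le] at hc
  have a1 := cell_bd K x
  have a2 := cell_bd K y
  have a3 := cell_bd K z
  have hp : (0 : ℤ) < 2 ^ K := by positivity
  unfold wn
  rw [mem_Icc]
  push_cast
  constructor
  · by_contra h3
    have h4 : ix K y + 1 ≤ c K - ix K x - ix K z - (E + 6) := by omega
    have h5 := mul_le_mul_of_nonneg_left h4 hp.le
    nlinarith [h5]
  · by_contra h3
    have h4 : c K - ix K x - ix K z + (E + 6) + 1 ≤ ix K y := by omega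
    have h5 := mul_le_mul_of_nonneg_left h4 hp.le
    nlinarith [h5]

/-- the window as one interval -/
theorem wn_sum (D K : ℕ) (m0 : ℤ) (f : ℤ → ℝ) :
    ∑ m ∈ wn D m0, ∑ y ∈ iv K m, f y =
      ∑ y ∈ Ico (2 ^ K * (m0 - D)) (2 ^ K * (m0 + D + 1)), f y := by
  classical
  have hp : (0 : ℤ) < 2 ^ K := by positivity
  have e : Ico (2 ^ K * (m0 - D)) (2 ^ K * (m0 + D + 1)) = (wn D m0).biUnion (iv K) := by
    ext y
    rw [mem_biUnion, mem_Ico]
    have a := cell_bd K y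
    constructor
    · rintro ⟨h1, h2⟩
      refine ⟨ix K y, ?_, (mem_iv).2 rfl⟩
      unfold wn
      rw [mem_Icc]
      constructor
      · by_contra h3
        have h4 : ix K y + 1 ≤ m0 - D := by omega
        have h5 := mul_le_mul_of_nonneg_left h4 hp.le
        nlinarith [h5]
      · by_contra h3
        have h4 : m0 + D + 1 ≤ ix K y := by omega
        have h5 := mul_le_mul_of_nonneg_left h4 hp.le
        nlinarith [h5]
    · rintro ⟨m, h1, h2⟩
      rw [mem_iv] at h2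
      rw [h2] at a
      unfold wn at h1
      rw [mem_Icc] at h1
      have h3 := mul_le_mul_of_nonneg_left h1.1 hp.le
      have h4 := mul_le_mul_of_nonneg_left h1.2 hp.le
      constructor
      · linarith [a.1]
      · nlinarith [a.2]
  rw [e, sum_biUnion]
  intro m _ m' _ h
  change Disjoint (iv K m) (iv K m')
  rw [disjoint_left]
  intro y hy hy'
  rw [mem_iv] at hy hy'
  exact h (hy.symm.trans hy')

/-- the mass of the kernel on the window is one -/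
theorem kz_sum {E K : ℕ} {c : ℕ → ℤ} {c' : ℤ} (hc : Cmp E c c' K) (z x : ℤ) :
    ∑ m ∈ wn (E + 6) (c K - ix K x - ix K z), ∑ y ∈ iv K m, kz c' K z x y = 1 := by
  rw [wn_sum]
  set m0 := c K - ix K x - ix K z with hm0
  unfold Cmp at hc
  rw [abs_le] at hc
  have a1 := cell_bd K x
  have a3 := cell_bd K z
  have hp : (0 : ℤ) < 2 ^ K := by positivity
  have h := KK_sum K (c' - x - z - 2 ^ K * (m0 + (E + 6 : ℕ) + 1) + 1)
    (c' - x - z - 2 ^ K * (m0 - (E + 6 : ℕ)) + 1) (by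
      rw [hm0]
      push_cast
      nlinarith) (by
      rw [hm0]
      push_cast
      nlinarith)
  rw [← h]
  refine sum_nbij' (fun y => c' - x - z - y) (fun u => c' - x - z - u) ?_ ?_ ?_ ?_ ?_
  · intro y hy
    rw [mem_Ico] at hy ⊢
    constructor <;> linarith [hy.1, hy.2]
  · intro y hy
    rw [mem_Ico] at hy ⊢
    constructor <;> linarith [hy.1, hy.2]
  · intro y _
    ring
  · intro y _
    ring
  · intro y _
    unfold kz
    congr 1
    ring

/-- the mass of the absolute value -/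
theorem kz_abs (D K : ℕ) (c' z x m0 : ℤ) :
    ∑ m ∈ wn D m0, |∑ y ∈ iv K m, kz c' K z x y| ≤ 4 / 3 * (2 * D + 1) := by
  have h : ∀ m ∈ wn D m0, |∑ y ∈ iv K m, kz c' K z x y| ≤ 4 / 3 := by
    intro m _
    refine (abs_sum_le_sum_abs _ _).trans ?_
    refine (sum_le_sum fun y _ => abs_KK K (c' - x - y - z)).trans ?_
    rw [sum_const, card_iv, nsmul_eq_mul]
    push_cast
    have : (2 : ℝ) ^ K ≠ 0 := by positivity
    field_simp
    exact le_rfl
  refine (sum_le_sum h).trans (le_of_eq ?_)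
  rw [sum_const, card_wn, nsmul_eq_mul]
  push_cast
  ring

/-- **The near term at one point `(x, z)`.** -/
theorem In2_near {N K E : ℕ} (hK : K ≤ N) {c : ℕ → ℤ} {c' : ℤ} (hc : Cmp E c c' K) (S : ℤ)
    (A : ℤ → ℤ → ℝ) (b : ℤ → ℤ → κ → ℝ) (x z : ℤ) (i : κ) :
    In2 N S (fun y => p K (c K) y - kp c' K y) (fun y i => A y.2.2 y.2.1 * b y.1 y.2.1 i) x z i =
      -(∑ m ∈ wn (E + 6) (c K - ix K x - ix K z), ∑ y ∈ iv K m,
          kz c' K z x y * fz N S A b z x i y -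
        mn K (fz N S A b z x i) (c K - ix K x - ix K z)) := by
  classical
  unfold In2
  simp only
  rw [neg_sub]
  have e1 : ∑ y ∈ iv N S, (p K (c K) (x, y, z) - kp c' K (x, y, z)) * (A z y * b x y i) =
      ∑ y ∈ iv N S, p K (c K) (x, y, z) * (A z y * b x y i) -
      ∑ y ∈ iv N S, kz c' K z x y * fz N S A b z x i y := by
    rw [← sum_sub_distrib]
    refine sum_congr rfl fun y hy => ?_
    rw [kz_eq, fz, if_pos hy]
    ring
  rw [e1]
  congr 1
  · -- the mean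
    set m0 := c K - ix K x - ix K z with hm0
    have e2 : ∑ y ∈ iv N S, p K (c K) (x, y, z) * (A z y * b x y i) =
        ∑ y ∈ iv K m0, ((2 : ℝ) ^ K)⁻¹ * fz N S A b z x i y := by
      refine sum_congr_of_eq_on_inter ?_ ?_ ?_
      · intro y _ h2
        rw [mem_iv] at h2
        unfold p
        rw [if_neg, zero_mul]
        intro h3
        apply h2
        simp only at h3
        rw [hm0]
        linarith
      · intro y _ h2
        unfold fz
        rw [if_neg h2, mul_zero]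
      · intro y h1 h2
        rw [mem_iv] at h2
        unfold p fz
        rw [if_pos h1, if_pos]
        simp only
        rw [h2, hm0]
        ring
    rw [e2, ← mul_sum]
    rfl
  · rw [wn_sum]
    refine sum_congr_of_eq_on_inter ?_ ?_ ?_
    · intro y _ h2
      by_cases h3 : kz c' K z x y = 0
      · rw [h3, zero_mul]
      · exfalso
        apply h2
        have h4 := kz_supp hc h3
        have h5 := cell_bd K y
        unfold wn at h4
        rw [mem_Icc] at h4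
        rw [mem_Ico]
        have hp : (0 : ℤ) < 2 ^ K := by positivity
        have h6 := mul_le_mul_of_nonneg_left h4.1 hp.le
        have h7 := mul_le_mul_of_nonneg_left h4.2 hp.le
        constructor
        · linarith [h5.1]
        · nlinarith [h5.2]
    · intro y _ h2
      unfold fz
      rw [if_neg h2, mul_zero]
    · intro y _ _
      rfl

/-- the square of a vector -/
def sq (v : κ → ℝ) : ℝ := v ⬝ᵥ v

theorem sq_eq (v : κ → ℝ) : sq v = ∑ i, v i ^ 2 := by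
  unfold sq dotProduct
  exact sum_congr rfl fun i _ => by rw [pow_two]

theorem sq_nonneg' (v : κ → ℝ) : 0 ≤ sq v := by
  rw [sq_eq]
  exact sum_nonneg fun i _ => sq_nonneg _

/-- the Haar gap of the product, zero outside the root -/
def Hz (N : ℕ) (S : ℤ) (A : ℤ → ℤ → ℝ) (b : ℤ → ℤ → κ → ℝ) (z x : ℤ) (k : ℕ) (m : ℤ) : κ → ℝ :=
  if m ∈ iv (N - k) S then H483.hd (qK A b z x) k m else 0

/-- **The near term at one point, squared.** `lip`: any Lipschitz constant of the kernels. -/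
theorem In2_sq {N K E : ℕ} (hK : K ≤ N) {c : ℕ → ℤ} {c' : ℤ} (hc : Cmp E c c' K) (S : ℤ) {C : ℝ}
    (lip : ∀ u : ℤ, |H795.KK K (u + 1) - H795.KK K u| ≤ C / 4 ^ K)
    (A : ℤ → ℤ → ℝ) (b : ℤ → ℤ → κ → ℝ) (x z : ℤ) :
    sq (In2 N S (fun y => p K (c K) y - kp c' K y) (fun y i => A y.2.2 y.2.1 * b y.1 y.2.1 i) x z)
      ≤ 2 * ((4 / 3 * (2 * (E + 6 : ℕ) + 1)) ^ 2 * (2 * (E + 6 : ℕ)) *
          ∑ m ∈ Ico (c K - ix K x - ix K z - (E + 6 : ℕ)) (c K - ix K x - ix K z + (E + 6 : ℕ)),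
            sq (Vz N S A b z x K (m + 1) - Vz N S A b z x K m)) +
        2 * (C ^ 2 * (2 * (E + 6 : ℕ) + 1) * ∑ j ∈ range K, (1 / 6 : ℝ) ^ (K - (j + 1)) *
          ∑ m ∈ wn (E + 6) (c K - ix K x - ix K z), ∑ I ∈ iv (K - (j + 1)) m,
            sq (Hz N S A b z x (j + 1) I)) := by
  have lip' : ∀ u : ℤ, |kz c' K z x (u + 1) - kz c' K z x u| ≤ C / 4 ^ K := by
    intro u
    unfold kz
    have h := lip (c' - x - (u + 1) - z)
    rw [show c' - x - (u + 1) - z + 1 = c' - x - u - z by ring] at h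
    rwa [abs_sub_comm]
  have h : ∀ i : κ, In2 N S (fun y => p K (c K) y - kp c' K y)
      (fun y i => A y.2.2 y.2.1 * b y.1 y.2.1 i) x z i ^ 2 ≤
      2 * ((4 / 3 * (2 * (E + 6 : ℕ) + 1)) ^ 2 * (2 * (E + 6 : ℕ)) *
          ∑ m ∈ Ico (c K - ix K x - ix K z - (E + 6 : ℕ)) (c K - ix K x - ix K z + (E + 6 : ℕ)),
            (Vz N S A b z x K (m + 1) i - Vz N S A b z x K m i) ^ 2) +
        2 * (C ^ 2 * (2 * (E + 6 : ℕ) + 1) * ∑ j ∈ range K, (1 / 6 : ℝ) ^ (K - (j + 1)) *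
          ∑ m ∈ wn (E + 6) (c K - ix K x - ix K z), ∑ I ∈ iv (K - (j + 1)) m,
            Hz N S A b z x (j + 1) I i ^ 2) := by
    intro i
    rw [In2_near hK hc S A b x z i, neg_sq]
    have h1 := near_sq (fz N S A b z x i) (kz_sum hc z x) lip' (kz_abs (E + 6) K c' z x _)
    refine h1.trans (le_of_eq ?_)
    congr 1
    · congr 2
      refine sum_congr rfl fun m _ => ?_
      rw [Vz_mn hK, Vz_mn hK]
    · congr 2
      refine sum_congr rfl fun j hj => ?_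
      congr 1
      refine sum_congr rfl fun m _ => sum_congr rfl fun I _ => ?_
      rw [mem_range] at hj
      rw [Vz_gh (by omega)]
      unfold Hz
      split_ifs <;> rfl
  rw [sq_eq]
  refine (sum_le_sum fun i _ => h i).trans (le_of_eq ?_)
  rw [sum_add_distrib, ← mul_sum, ← mul_sum, ← mul_sum, ← mul_sum]
  congr 1
  · congr 2
    rw [sum_comm]
    refine sum_congr rfl fun m _ => ?_
    rw [sq_eq]
    rfl
  · congr 2
    rw [sum_comm]
    refine sum_congr rfl fun j _ => ?_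
    rw [← mul_sum]
    congr 1
    rw [sum_comm]
    refine sum_congr rfl fun m _ => ?_
    rw [sum_comm]
    refine sum_congr rfl fun I _ => ?_
    rw [sq_eq]

/-! ### Plane sums -/

/-- neighbour differences at the scale `K`, cells `m = c - n - n'` -/
def NB (N : ℕ) (R S T : ℤ) (A : ℤ → ℤ → ℝ) (b : ℤ → ℤ → κ → ℝ) (K : ℕ) (c : ℤ) : ℝ :=
  ∑ n ∈ iv (N - K) R, ∑ n' ∈ iv (N - K) T, ∑ z ∈ iv K n, ∑ x ∈ iv K n',
    sq (Vz N S A b z x K (c - n - n' + 1) - Vz N S A b z x K (c - n - n'))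

/-- the gap of the pair at middle scale `k`, outer scale `K` -/
def gV (A : ℤ → ℤ → ℝ) (b : ℤ → ℤ → κ → ℝ) (K k : ℕ) (n n' m : ℤ) : ℝ :=
  ((4 : ℝ) ^ K)⁻¹ * ∑ z ∈ iv K n, ∑ x ∈ iv K n', sq (H483.hd (qK A b z x) k m)

theorem iv_iv {k N : ℕ} (hk : k ≤ N) (R : ℤ) {β : Type*} [AddCommMonoid β] (f : ℤ → β) :
    ∑ x ∈ iv N R, f x = ∑ a ∈ iv (N - k) R, ∑ x ∈ iv k a, f x := by
  classical
  have hmap : ∀ x ∈ iv N R, ix k x ∈ iv (N - k) R := fun x hx =>
    (mem_root hk ((mem_iv).2 rfl)).1 hx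
  rw [← sum_fiberwise_of_maps_to hmap]
  refine sum_congr rfl fun a ha => sum_congr ?_ fun _ _ => rfl
  ext x
  rw [mem_filter, mem_iv (m := a)]
  constructor
  · exact fun h => h.2
  · intro h
    exact ⟨(mem_root hk ((mem_iv).2 h)).2 ha, h⟩

/-- a sum over the window as a sum over offsets -/
theorem Ico_off (D : ℕ) (a : ℤ) (f : ℤ → ℝ) :
    ∑ m ∈ Ico (a - D) (a + D), f m = ∑ d ∈ Ico (-(D : ℤ)) D, f (a + d) := by
  refine sum_nbij' (fun m => m - a) (fun d => a + d) ?_ ?_ ?_ ?_ ?_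
  · intro m hm
    rw [mem_Ico] at hm ⊢
    omega
  · intro m hm
    rw [mem_Ico] at hm ⊢
    omega
  · intro m _
    ring
  · intro m _
    ring
  · intro m _
    congr 1
    ring

theorem wn_off (D : ℕ) (a : ℤ) (f : ℤ → ℝ) :
    ∑ m ∈ wn D a, f m = ∑ d ∈ Icc (-(D : ℤ)) D, f (a + d) := by
  unfold wn
  refine sum_nbij' (fun m => m - a) (fun d => a + d) ?_ ?_ ?_ ?_ ?_
  · intro m hm
    rw [mem_Icc] at hm ⊢
    omega
  · intro m hm
    rw [mem_Icc] at hm ⊢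
    omega
  · intro m _
    ring
  · intro m _
    ring
  · intro m _
    congr 1
    ring

/-- two variables by cells -/
theorem two_cells {N K : ℕ} (hK : K ≤ N) (R T : ℤ) (F : ℤ → ℤ → ℤ → ℤ → ℝ) :
    ∑ x ∈ iv N T, ∑ z ∈ iv N R, F (ix K z) (ix K x) z x =
      ∑ n ∈ iv (N - K) R, ∑ n' ∈ iv (N - K) T, ∑ z ∈ iv K n, ∑ x ∈ iv K n', F n n' z x := by
  rw [sum_comm, iv_iv hK R]
  refine sum_congr rfl fun n _ => ?_
  have e : ∀ z ∈ iv K n, ∑ x ∈ iv N T, F (ix K z) (ix K x) z x =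
      ∑ n' ∈ iv (N - K) T, ∑ x ∈ iv K n', F n n' z x := by
    intro z hz
    rw [mem_iv] at hz
    rw [iv_iv hK T]
    refine sum_congr rfl fun n' _ => sum_congr rfl fun x hx => ?_
    rw [mem_iv] at hx
    rw [hz, hx]
  rw [sum_congr rfl e, sum_comm]

/-- the neighbour part -/
theorem sum_NB {N K : ℕ} (hK : K ≤ N) (R S T : ℤ) (A : ℤ → ℤ → ℝ) (b : ℤ → ℤ → κ → ℝ) (c : ℤ)
    (D : ℕ) :
    ∑ x ∈ iv N T, ∑ z ∈ iv N R, ∑ m ∈ Ico (c - ix K x - ix K z - D) (c - ix K x - ix K z + D),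
      sq (Vz N S A b z x K (m + 1) - Vz N S A b z x K m) =
    ∑ d ∈ Ico (-(D : ℤ)) D, NB N R S T A b K (c + d) := by
  simp only [Ico_off]
  rw [two_cells hK R T fun n n' z x => ∑ d ∈ Ico (-(D : ℤ)) D,
    sq (Vz N S A b z x K (c - n' - n + d + 1) - Vz N S A b z x K (c - n' - n + d))]
  unfold NB
  have e : ∀ n ∈ iv (N - K) R, ∑ n' ∈ iv (N - K) T, ∑ z ∈ iv K n, ∑ x ∈ iv K n',
      ∑ d ∈ Ico (-(D : ℤ)) D, sq (Vz N S A b z x K (c - n' - n + d + 1) -
        Vz N S A b z x K (c - n' - n + d)) = ∑ d ∈ Ico (-(D : ℤ)) D,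
      ∑ n' ∈ iv (N - K) T, ∑ z ∈ iv K n, ∑ x ∈ iv K n',
        sq (Vz N S A b z x K (c + d - n - n' + 1) - Vz N S A b z x K (c + d - n - n')) := by
    intro n _
    rw [sum_comm (s := Ico (-(D : ℤ)) D)]
    refine sum_congr rfl fun n' _ => ?_
    rw [sum_comm (s := Ico (-(D : ℤ)) D)]
    refine sum_congr rfl fun z _ => ?_
    rw [sum_comm (s := Ico (-(D : ℤ)) D)]
    refine sum_congr rfl fun x _ => sum_congr rfl fun d _ => ?_
    rw [show c - n' - n + d = c + d - n - n' by ring]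
  rw [sum_congr rfl e, sum_comm]

/-- the gap part at one middle scale `k = j + 1`, outer scale `K = k + r` -/
theorem sum_GR {N k r : ℕ} (hK : k + r ≤ N) (R S T : ℤ) (A : ℤ → ℤ → ℝ) (b : ℤ → ℤ → κ → ℝ)
    (c : ℤ) (D : ℕ) :
    ∑ x ∈ iv N T, ∑ z ∈ iv N R, ∑ m ∈ wn D (c - ix (k + r) x - ix (k + r) z), ∑ I ∈ iv r m,
      sq (Hz N S A b z x k I) =
    2 ^ r * ∑ d ∈ Icc (-(D : ℤ)) D, GR N R S T k r (c + d) (gV A b (k + r) k) := by
  simp only [wn_off]
  rw [two_cells hK R T fun n n' z x => ∑ d ∈ Icc (-(D : ℤ)) D, ∑ I ∈ iv r (c - n' - n + d),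
    sq (Hz N S A b z x k I)]
  have e0 : ∀ n ∈ iv (N - (k + r)) R, ∑ n' ∈ iv (N - (k + r)) T, ∑ z ∈ iv (k + r) n,
      ∑ x ∈ iv (k + r) n', ∑ d ∈ Icc (-(D : ℤ)) D, ∑ I ∈ iv r (c - n' - n + d),
        sq (Hz N S A b z x k I) = ∑ d ∈ Icc (-(D : ℤ)) D,
      ∑ n' ∈ iv (N - (k + r)) T, ∑ z ∈ iv (k + r) n, ∑ x ∈ iv (k + r) n',
        ∑ I ∈ iv r (c + d - n - n'), sq (Hz N S A b z x k I) := by
    intro n _
    rw [sum_comm (s := Icc (-(D : ℤ)) D)]
    refine sum_congr rfl fun n' _ => ?_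
    rw [sum_comm (s := Icc (-(D : ℤ)) D)]
    refine sum_congr rfl fun z _ => ?_
    rw [sum_comm (s := Icc (-(D : ℤ)) D)]
    refine sum_congr rfl fun x _ => sum_congr rfl fun d _ => ?_
    rw [show c - n' - n + d = c + d - n - n' by ring]
  rw [sum_congr rfl e0, sum_comm, mul_sum]
  refine sum_congr rfl fun d _ => ?_
  set c1 := c + d with hc1
  -- one plane
  have hp4 : (4 : ℝ) ^ (k + r) = 2 ^ (k + r) * 2 ^ (k + r) := by rw [← mul_pow]; norm_num
  have e1 : ∀ n n' : ℤ, ∑ z ∈ iv (k + r) n, ∑ x ∈ iv (k + r) n', ∑ I ∈ iv r (c1 - n - n'),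
      sq (Hz N S A b z x k I) = ∑ I ∈ iv (N - k) S, if c1 - I / 2 ^ r - n = n' then
        ∑ z ∈ iv (k + r) n, ∑ x ∈ iv (k + r) n', sq (H483.hd (qK A b z x) k I) else 0 := by
    intro n n'
    have e2 : ∀ z x : ℤ, ∑ I ∈ iv r (c1 - n - n'), sq (Hz N S A b z x k I) =
        ∑ I ∈ iv (N - k) S, if c1 - I / 2 ^ r - n = n' then sq (H483.hd (qK A b z x) k I)
          else 0 := by
      intro z x
      refine sum_congr_of_eq_on_inter ?_ ?_ ?_
      · intro I _ h2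
        unfold Hz
        rw [if_neg h2]
        simp [sq]
      · intro I _ h2
        rw [mem_iv] at h2
        rw [if_neg]
        intro h3
        apply h2
        unfold ix
        linarith
      · intro I h1 h2
        rw [mem_iv] at h1
        unfold ix at h1
        unfold Hz
        rw [if_pos h2, if_pos (by linarith)]
    simp only [e2]
    have e3 : ∀ z : ℤ, ∑ x ∈ iv (k + r) n', ∑ I ∈ iv (N - k) S, (if c1 - I / 2 ^ r - n = n' then
        sq (H483.hd (qK A b z x) k I) else 0) = ∑ I ∈ iv (N - k) S,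
        if c1 - I / 2 ^ r - n = n' then ∑ x ∈ iv (k + r) n', sq (H483.hd (qK A b z x) k I)
          else 0 := by
      intro z
      rw [sum_comm]
      refine sum_congr rfl fun I _ => ?_
      split_ifs <;> simp
    simp only [e3]
    rw [sum_comm]
    refine sum_congr rfl fun I _ => ?_
    split_ifs <;> simp
  simp only [e1]
  unfold GR gV
  have e4 : ∀ n : ℤ, ∑ n' ∈ iv (N - (k + r)) T, ∑ I ∈ iv (N - k) S,
      (if c1 - I / 2 ^ r - n = n' then
        ∑ z ∈ iv (k + r) n, ∑ x ∈ iv (k + r) n', sq (H483.hd (qK A b z x) k I) else 0) =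
      ∑ I ∈ iv (N - k) S, if c1 - I / 2 ^ r - n ∈ iv (N - (k + r)) T then
        ∑ z ∈ iv (k + r) n, ∑ x ∈ iv (k + r) (c1 - I / 2 ^ r - n),
          sq (H483.hd (qK A b z x) k I) else 0 := by
    intro n
    rw [sum_comm]
    refine sum_congr rfl fun I _ => ?_
    rw [sum_ite_eq]
  rw [sum_congr rfl fun n _ => e4 n, sum_comm, ← mul_assoc, mul_sum]
  refine sum_congr rfl fun I _ => ?_
  rw [mul_sum]
  refine sum_congr rfl fun n _ => ?_
  split_ifs
  · rw [hp4, pow_add]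
    have h1 : (2 : ℝ) ^ k ≠ 0 := by positivity
    have h2 : (2 : ℝ) ^ r ≠ 0 := by positivity
    field_simp
  · rw [mul_zero]

/-- **The near term at one scale as plane sums.** -/
theorem near_scale {N K E : ℕ} (hK : K ≤ N) {c : ℕ → ℤ} {c' : ℤ} (hc : Cmp E c c' K) (R S T : ℤ)
    {C : ℝ} (lip : ∀ u : ℤ, |H795.KK K (u + 1) - H795.KK K u| ≤ C / 4 ^ K)
    (A : ℤ → ℤ → ℝ) (b : ℤ → ℤ → κ → ℝ) :
    ∑ x ∈ iv N T, ∑ z ∈ iv N R, sq (In2 N S (fun y => p K (c K) y - kp c' K y)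
        (fun y i => A y.2.2 y.2.1 * b y.1 y.2.1 i) x z) ≤
      2 * ((4 / 3 * (2 * (E + 6 : ℕ) + 1)) ^ 2 * (2 * (E + 6 : ℕ))) *
        ∑ d ∈ Ico (-((E + 6 : ℕ) : ℤ)) (E + 6 : ℕ), NB N R S T A b K (c K + d) +
      2 * (C ^ 2 * (2 * (E + 6 : ℕ) + 1)) * ∑ j ∈ range K, (1 / 3 : ℝ) ^ (K - (j + 1)) *
        ∑ d ∈ Icc (-((E + 6 : ℕ) : ℤ)) (E + 6 : ℕ),
          GR N R S T (j + 1) (K - (j + 1)) (c K + d) (gV A b K (j + 1)) := by
  refine (sum_le_sum fun x _ => sum_le_sum fun z _ => In2_sq hK hc S lip A b x z).trans ?_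
  simp only [sum_add_distrib, ← mul_sum]
  rw [sum_NB hK R S T A b (c K) (E + 6)]
  refine add_le_add (le_of_eq (by ring)) (le_of_eq ?_)
  rw [mul_assoc (2 : ℝ)]
  congr 2
  have e : ∀ x z : ℤ, ∑ j ∈ range K, (1 / 6 : ℝ) ^ (K - (j + 1)) *
      ∑ m ∈ wn (E + 6) (c K - ix K x - ix K z), ∑ I ∈ iv (K - (j + 1)) m,
        sq (Hz N S A b z x (j + 1) I) = ∑ j ∈ range K, (1 / 6 : ℝ) ^ (K - (j + 1)) *
      ∑ m ∈ wn (E + 6) (c K - ix K x - ix K z), ∑ I ∈ iv (K - (j + 1)) m,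
        sq (Hz N S A b z x (j + 1) I) := fun _ _ => rfl
  have e1 : ∀ x : ℤ, ∑ z ∈ iv N R, ∑ j ∈ range K, (1 / 6 : ℝ) ^ (K - (j + 1)) *
      ∑ m ∈ wn (E + 6) (c K - ix K x - ix K z), ∑ I ∈ iv (K - (j + 1)) m,
        sq (Hz N S A b z x (j + 1) I) = ∑ j ∈ range K, (1 / 6 : ℝ) ^ (K - (j + 1)) *
      ∑ z ∈ iv N R, ∑ m ∈ wn (E + 6) (c K - ix K x - ix K z), ∑ I ∈ iv (K - (j + 1)) m,
        sq (Hz N S A b z x (j + 1) I) := by
    intro x
    rw [sum_comm]
    exact sum_congr rfl fun j _ => (mul_sum _ _ _).symm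
  rw [sum_congr rfl fun x _ => e1 x, sum_comm]
  refine sum_congr rfl fun j hj => ?_
  rw [mem_range] at hj
  rw [← mul_sum]
  obtain ⟨r, rfl⟩ : ∃ r, K = j + 1 + r := ⟨K - (j + 1), by omega⟩
  rw [Nat.add_sub_cancel_left, sum_GR hK R S T A b (c (j + 1 + r)) (E + 6), ← mul_assoc]
  congr 1
  rw [← mul_pow]
  norm_num

end

end Vale.Agent.P141.H352
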