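import Vale.Agent.P141.H352.Gap3

/-!
# P141, line (A), real ties: the step of the Abel line (`kap_le`)
-/

namespace Vale.Agent.P141.H352

open Finset
open Vale.Agent.P141.PL

noncomputable section

/-- the function multiplied by a sign of scale `k`: `s = 0` nothing, `s = 1, 2, 3` the variable -/
def sF (k : ℕ) (s : Fin 4) (F : Pt → ℝ) (x : Pt) : ℝ :=
  (match s with
    | 0 => 1
    | 1 => hs k x.1
    | 2 => hs k x.2.1
    | 3 => hs k x.2.2) * F x

theorem sF_zero (k : ℕ) (F : Pt → ℝ) : sF k 0 F = F := by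
  funext x; unfold sF; simp

theorem abs_sF (k : ℕ) (s : Fin 4) (F : Pt → ℝ) (x : Pt) : |sF k s F x| = |F x| := by
  unfold sF
  fin_cases s <;> simp [abs_mul, abs_hs]

/-- the kernel of the step, one formula for the four cases -/
theorem kap_form {N k : ℕ} (hk : k + 1 ≤ N) (M : Pt) {c : ℕ → ℤ} (hc : Pl c) (F : Pt → ℝ) :
    ∃ i : ℤ, (c (k + 1) ≤ i ∧ i ≤ c (k + 1) + 2) ∧
      |In N M (fun x => p k (c k) x - p (k + 1) (c (k + 1)) x) F| ≤
        ∑ s : Fin 4, |In N M (D (k + 1) i) (sF (k + 1) s F)|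
          + 2 * TN N M (k + 1) (c (k + 1)) F := by
  have hc' := hc k
  have hd : c k - 2 * c (k + 1) = 0 ∨ c k - 2 * c (k + 1) = 1 ∨ c k - 2 * c (k + 1) = 2 ∨
      c k - 2 * c (k + 1) = 3 := by omega
  set a := c (k + 1) with ha
  have hT := TN_nonneg N M (k + 1) a F
  -- the common bound
  have main : ∀ i : ℤ, a ≤ i → i ≤ a + 1 → ∀ α β γ δ : ℝ, |α| ≤ 1 → |β| ≤ 1 / 4 →
      |γ| + |δ| ≤ 1 →
      (∀ x, p k (c k) x - p (k + 1) a x = α * D (k + 1) i x + 1 / 4 * e1 k x * D (k + 1) i x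
        + β * e2 k x * D (k + 1) i x
        + e3 k x * (γ * p (k + 1) i x + δ * p (k + 1) (i - 1) x)) →
      |In N M (fun x => p k (c k) x - p (k + 1) a x) F| ≤
        ∑ s : Fin 4, |In N M (D (k + 1) i) (sF (k + 1) s F)| + 2 * TN N M (k + 1) a F := by
    intro i hi1 hi2 α β γ δ hα hβ hγ hx
    have q0 : a - 2 ≤ i ∧ i ≤ a + 2 := ⟨by linarith, by linarith⟩
    have q1 : a - 2 ≤ i - 1 ∧ i - 1 ≤ a + 2 := ⟨by linarith, by linarith⟩
    have b4 := at12 hk M F q0
    have b5 := at13 hk M F q0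
    have b6 := at23 hk M F q0
    have c0 := at123 hk M F q0
    have c1 := at123 hk M F q1
    have e : In N M (fun x => p k (c k) x - p (k + 1) a x) F =
        α * In N M (D (k + 1) i) (sF (k + 1) 0 F)
        + 1 / 4 * In N M (D (k + 1) i) (sF (k + 1) 1 F)
        + 1 / 4 * In N M (D (k + 1) i) (sF (k + 1) 2 F)
        + 1 / 4 * In N M (D (k + 1) i) (sF (k + 1) 3 F)
        + β * In N M (fun x => h1 k x * h2 k x * D (k + 1) i x) F
        + β * In N M (fun x => h1 k x * h3 k x * D (k + 1) i x) F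
        + β * In N M (fun x => h2 k x * h3 k x * D (k + 1) i x) F
        + γ * In N M (fun x => h1 k x * h2 k x * h3 k x * p (k + 1) i x) F
        + δ * In N M (fun x => h1 k x * h2 k x * h3 k x * p (k + 1) (i - 1) x) F := by
      unfold In
      simp only [mul_sum, ← sum_add_distrib]
      refine sum_congr rfl fun x _ => ?_
      rw [hx]
      unfold sF e1 e2 e3 h1 h2 h3
      ring
    rw [e]
    have tri : ∀ y1 y2 y3 y4 y5 y6 y7 y8 y9 : ℝ, |y1 + y2 + y3 + y4 + y5 + y6 + y7 + y8 + y9| ≤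
        |y1| + |y2| + |y3| + |y4| + |y5| + |y6| + |y7| + |y8| + |y9| := by
      intro y1 y2 y3 y4 y5 y6 y7 y8 y9
      refine (abs_add_le _ _).trans (add_le_add ?_ le_rfl)
      refine (abs_add_le _ _).trans (add_le_add ?_ le_rfl)
      refine (abs_add_le _ _).trans (add_le_add ?_ le_rfl)
      refine (abs_add_le _ _).trans (add_le_add ?_ le_rfl)
      refine (abs_add_le _ _).trans (add_le_add ?_ le_rfl)
      refine (abs_add_le _ _).trans (add_le_add ?_ le_rfl)
      refine (abs_add_le _ _).trans (add_le_add ?_ le_rfl)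
      exact abs_add_le _ _
    refine (tri _ _ _ _ _ _ _ _ _).trans ?_
    simp only [abs_mul]
    rw [Fin.sum_univ_four]
    have z0 := abs_nonneg (In N M (D (k + 1) i) (sF (k + 1) 0 F))
    have z1 := abs_nonneg (In N M (D (k + 1) i) (sF (k + 1) 1 F))
    have z2 := abs_nonneg (In N M (D (k + 1) i) (sF (k + 1) 2 F))
    have z3 := abs_nonneg (In N M (D (k + 1) i) (sF (k + 1) 3 F))
    have h14 : |(1 / 4 : ℝ)| = 1 / 4 := abs_of_pos (by norm_num)
    rw [h14]
    have y0 := mul_le_mul_of_nonneg_right hα z0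
    have y1 : |β| * |In N M (fun x => h1 k x * h2 k x * D (k + 1) i x) F| ≤
        1 / 4 * TN N M (k + 1) a F := mul_le_mul hβ b4 (abs_nonneg _) (by norm_num)
    have y2 : |β| * |In N M (fun x => h1 k x * h3 k x * D (k + 1) i x) F| ≤
        1 / 4 * TN N M (k + 1) a F := mul_le_mul hβ b5 (abs_nonneg _) (by norm_num)
    have y3 : |β| * |In N M (fun x => h2 k x * h3 k x * D (k + 1) i x) F| ≤
        1 / 4 * TN N M (k + 1) a F := mul_le_mul hβ b6 (abs_nonneg _) (by norm_num)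
    have y4 : |γ| * |In N M (fun x => h1 k x * h2 k x * h3 k x * p (k + 1) i x) F| ≤
        |γ| * TN N M (k + 1) a F := mul_le_mul_of_nonneg_left c0 (abs_nonneg _)
    have y5 : |δ| * |In N M (fun x => h1 k x * h2 k x * h3 k x * p (k + 1) (i - 1) x) F| ≤
        |δ| * TN N M (k + 1) a F := mul_le_mul_of_nonneg_left c1 (abs_nonneg _)
    have y6 : (|γ| + |δ|) * TN N M (k + 1) a F ≤ 1 * TN N M (k + 1) a F :=
      mul_le_mul_of_nonneg_right hγ hT
    linarith
  rcases hd with h | h | h | h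
  · refine ⟨a, ⟨le_rfl, by linarith⟩, ?_⟩
    refine main a le_rfl (by linarith) (-(3 / 4)) (1 / 4) (1 / 4) (3 / 4) ?_ ?_ ?_ fun x => ?_
    · rw [abs_neg, abs_of_pos] <;> norm_num
    · rw [abs_of_pos] <;> norm_num
    · rw [abs_of_pos (by norm_num : (0 : ℝ) < 1 / 4), abs_of_pos (by norm_num : (0 : ℝ) < 3 / 4)]
      norm_num
    · have e : c k = 2 * a := by omega
      rw [e, kap_zero]; ring
  · refine ⟨a, ⟨le_rfl, by linarith⟩, ?_⟩
    refine main a le_rfl (by linarith) (-(1 / 4)) (-(1 / 4)) (-(3 / 4)) (-(1 / 4)) ?_ ?_ ?_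
      fun x => ?_
    · rw [abs_neg, abs_of_pos] <;> norm_num
    · rw [abs_neg, abs_of_pos] <;> norm_num
    · rw [abs_neg, abs_neg, abs_of_pos (by norm_num : (0 : ℝ) < 1 / 4),
        abs_of_pos (by norm_num : (0 : ℝ) < 3 / 4)]
      norm_num
    · have e : c k = 2 * a + 1 := by omega
      rw [e, kap_one]; ring
  · refine ⟨a + 1, ⟨by linarith, by linarith⟩, ?_⟩
    refine main (a + 1) (by linarith) le_rfl (1 / 4) (1 / 4) (1 / 4) (3 / 4) ?_ ?_ ?_ fun x => ?_
    · rw [abs_of_pos] <;> norm_num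
    · rw [abs_of_pos] <;> norm_num
    · rw [abs_of_pos (by norm_num : (0 : ℝ) < 1 / 4), abs_of_pos (by norm_num : (0 : ℝ) < 3 / 4)]
      norm_num
    · have e : c k = 2 * a + 2 := by omega
      have e' : a + 1 - 1 = a := by ring
      rw [e, kap_two, e']; ring
  · refine ⟨a + 1, ⟨by linarith, by linarith⟩, ?_⟩
    refine main (a + 1) (by linarith) le_rfl (3 / 4) (-(1 / 4)) (-(3 / 4)) (-(1 / 4)) ?_ ?_ ?_
      fun x => ?_
    · rw [abs_of_pos] <;> norm_num
    · rw [abs_neg, abs_of_pos] <;> norm_num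
    · rw [abs_neg, abs_neg, abs_of_pos (by norm_num : (0 : ℝ) < 1 / 4),
        abs_of_pos (by norm_num : (0 : ℝ) < 3 / 4)]
      norm_num
    · have e : c k = 2 * a + 3 := by omega
      have e' : a + 1 - 1 = a := by ring
      rw [e, kap_three, e']; ring

/-- **One step of the Abel line is a sum of three-gap node forms**: scale `k + 1` directly, scale
`k + 2 + r` with the weight `2 ^ (-r)` and one deep sign of scale `k + 1`. -/
theorem kap_le {N k : ℕ} (hk : k + 1 ≤ N) (M : Pt) {c : ℕ → ℤ} (hc : Pl c) (F : Pt → ℝ) :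
    |In N M (fun x => p k (c k) x - p (k + 1) (c (k + 1)) x) F| ≤
      2 * TN N M (k + 1) (c (k + 1)) F
      + 13 * ∑ s : Fin 4, ∑ r ∈ range (N - (k + 1)), (1 / 2 : ℝ) ^ r *
          TN N M (k + 2 + r) (c (k + 2 + r)) (sF (k + 1) s F)
      + 6 * (1 / 2 : ℝ) ^ (N - (k + 1)) * ∑ s : Fin 4, top N M (sF (k + 1) s F) := by
  obtain ⟨i, hi, h⟩ := kap_form hk M hc F
  refine h.trans ?_
  have hD : ∀ s : Fin 4, |In N M (D (k + 1) i) (sF (k + 1) s F)| ≤
      13 * ∑ r ∈ range (N - (k + 1)), (1 / 2 : ℝ) ^ r *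
          TN N M (k + 2 + r) (c (k + 2 + r)) (sF (k + 1) s F)
        + 6 * (1 / 2 : ℝ) ^ (N - (k + 1)) * top N M (sF (k + 1) s F) := by
    intro s
    have h1 := D_le (N := N) M hc (sF (k + 1) s F) (N - (k + 1)) (k + 1) (by omega) i hi
    have h2 := abs_nonneg (In N M (D2 (k + 1) i) (sF (k + 1) s F))
    have e : k + 1 + 1 = k + 2 := rfl
    rw [e] at h1
    linarith
  have h3 := sum_le_sum fun s (_ : s ∈ (univ : Finset (Fin 4))) => hD s
  rw [sum_add_distrib, ← mul_sum, ← mul_sum] at h3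
  linarith

end

end Vale.Agent.P141.H352
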