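import Vale.Agent.P141.PL.H560.Transfer2
import Vale.Agent.P141.H352.Step3

/-!
# P141, line (A), real ties: the sum over the tied nodes as a sum over planes, and the Abel line

`tie_sum`: one scale, from the nodes `(bx0 o m)` to the planes `o - 2 - ix k x0` at fixed `x0`.
`Pl_tie`: these planes are admissible.
`abel_id`: summation by parts for `G a b` (`a` the time of the slot, `b` the time of the functions).
`abel_le`: the same with the step of the planes expanded in three-gap node forms.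
-/

namespace Vale.Agent.P141.H352

open Finset
open Vale.Agent.P141.PL
open Vale.Agent.P141.PL.H560 (cbs bx0)

noncomputable section

/-- the cells of scale `k` of a cube of scale `K` -/
theorem cb_part {k K : ℕ} (hk : k ≤ K) (M : Pt) {β : Type*} [AddCommMonoid β] (f : Pt → β) :
    ∑ x ∈ cb K M, f x = ∑ m ∈ cbs K M k, ∑ x ∈ cb k m, f x := by
  classical
  have hc : ∀ x : Pt, x ∈ cb K M → cx k x ∈ cbs K M k := by
    intro x hx
    rw [mem_cb] at hx
    unfold cbs
    rw [mem_product, mem_product, mem_iv, mem_iv, mem_iv]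
    unfold cx at hx ⊢
    simp only [ix_ix, Nat.add_sub_cancel' hk]
    rw [← hx]
    exact ⟨rfl, rfl, rfl⟩
  rw [← sum_fiberwise_of_maps_to hc]
  refine sum_congr rfl fun m hm => sum_congr ?_ fun _ _ => rfl
  ext x
  rw [mem_filter, mem_cb, mem_cb]
  constructor
  · exact fun h => h.2
  · intro h
    refine ⟨?_, h⟩
    unfold cbs at hm
    rw [mem_product, mem_product, mem_iv, mem_iv, mem_iv] at hm
    rw [← h] at hm
    unfold cx at hm ⊢
    simp only [ix_ix, Nat.add_sub_cancel' hk] at hm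
    exact Prod.ext hm.1 (Prod.ext hm.2.1 hm.2.2)

/-- **One scale**: the tied nodes are the planes `o - 2 - ix k x0`, at every point `x0`. -/
theorem tie_sum (o : ℤ) {k K : ℕ} (hk : k ≤ K) (M : Pt) (R0 : Finset ℤ)
    (hR : ∀ m ∈ cbs K M k, iv k (bx0 o m).1 ⊆ R0) (f : ℤ → Pt → ℝ) :
    ∑ m ∈ cbs K M k, ∑ x0 ∈ iv k (bx0 o m).1, ∑ x ∈ cb k m, f x0 x =
      2 ^ k * ∑ x0 ∈ R0, In K M (p k (o - 2 - ix k x0)) (f x0) := by
  classical
  have e1 : ∀ x0 ∈ R0, In K M (p k (o - 2 - ix k x0)) (f x0) =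
      ∑ m ∈ cbs K M k, if x0 ∈ iv k (bx0 o m).1 then
        ((2 : ℝ) ^ k)⁻¹ * ∑ x ∈ cb k m, f x0 x else 0 := by
    intro x0 _
    unfold In
    rw [cb_part hk]
    refine sum_congr rfl fun m _ => ?_
    by_cases h : x0 ∈ iv k (bx0 o m).1
    · rw [if_pos h, mul_sum]
      rw [mem_iv] at h
      refine sum_congr rfl fun x hx => ?_
      have hx' : cx k x = m := mem_cb.1 hx
      have h' : ix k x.1 + ix k x.2.1 + ix k x.2.2 = o - 2 - ix k x0 := by
        rw [h, ← hx']
        show ix k x.1 + ix k x.2.1 + ix k x.2.2 =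
          o - 2 - (o - 2 - (ix k x.1 + ix k x.2.1 + ix k x.2.2))
        ring
      unfold p
      rw [if_pos h']
    · rw [if_neg h]
      refine sum_eq_zero fun x hx => ?_
      have hx' : cx k x = m := mem_cb.1 hx
      have h' : ¬ (ix k x.1 + ix k x.2.1 + ix k x.2.2 = o - 2 - ix k x0) := by
        intro h2
        refine h ?_
        rw [mem_iv, ← hx']
        show ix k x0 = o - 2 - (ix k x.1 + ix k x.2.1 + ix k x.2.2)
        linarith
      unfold p
      rw [if_neg h', zero_mul]
  rw [sum_congr rfl e1, sum_comm, mul_sum]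
  refine sum_congr rfl fun m hm => ?_
  rw [← sum_filter]
  have e2 : R0.filter (fun x0 => x0 ∈ iv k (bx0 o m).1) = iv k (bx0 o m).1 := by
    ext x0
    rw [mem_filter]
    exact ⟨fun h => h.2, fun h => ⟨hR m hm h, h⟩⟩
  rw [e2, ← mul_sum, ← mul_assoc, mul_inv_cancel₀ (by positivity), one_mul]

/-- the planes of a point `x0` are admissible -/
theorem Pl_tie {o : ℤ} (ho : o = 1 ∨ o = -1) (x0 : ℤ) : Pl fun k => o - 2 - ix k x0 := by
  intro k
  have h := ix_succ k x0
  simp only
  rcases ho with rfl | rfl <;> omega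

theorem In_sub (N : ℕ) (M : Pt) (κ F G : Pt → ℝ) :
    In N M κ (fun x => F x - G x) = In N M κ F - In N M κ G := by
  unfold In
  rw [← sum_sub_distrib]
  exact sum_congr rfl fun x _ => by ring

theorem In_ksub (N : ℕ) (M : Pt) (κ κ' F : Pt → ℝ) :
    In N M (fun x => κ x - κ' x) F = In N M κ F - In N M κ' F := by
  unfold In
  rw [← sum_sub_distrib]
  exact sum_congr rfl fun x _ => by ring

/-- **The Abel line, exact.** `G a b`: slot at the time `a`, functions at the time `b`. -/
theorem abel_id (N : ℕ) (M : Pt) (c : ℕ → ℤ) (G : ℕ → ℕ → Pt → ℝ) (K : ℕ) :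
    ∑ k ∈ range K, In N M (p (k + 1) (c (k + 1)))
        (fun x => G k (k + 1) x - G (k + 1) (k + 1) x) =
      In N M (p 0 (c 0)) (G 0 0) - In N M (p K (c K)) (G K K)
      - ∑ k ∈ range K, In N M (p k (c k)) (fun x => G k k x - G k (k + 1) x)
      - ∑ k ∈ range K, In N M (fun x => p k (c k) x - p (k + 1) (c (k + 1)) x)
          (G (k + 1) (k + 1))
      - ∑ k ∈ range K, In N M (fun x => p k (c k) x - p (k + 1) (c (k + 1)) x)
          (fun x => G k (k + 1) x - G (k + 1) (k + 1) x) := by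
  induction K with
  | zero => simp
  | succ K ih =>
    simp only [sum_range_succ]
    rw [ih]
    simp only [In_sub, In_ksub]
    ring

/-- **The Abel line with the planes expanded.** -/
theorem abel_le (N : ℕ) (M : Pt) {c : ℕ → ℤ} (hc : Pl c) (G : ℕ → ℕ → Pt → ℝ) :
    |∑ k ∈ range N, In N M (p (k + 1) (c (k + 1)))
        (fun x => G k (k + 1) x - G (k + 1) (k + 1) x)| ≤
      |In N M (p 0 (c 0)) (G 0 0)| + |In N M (p N (c N)) (G N N)|
      + ∑ k ∈ range N, |In N M (p k (c k)) (fun x => G k k x - G k (k + 1) x)|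
      + ∑ k ∈ range N, |In N M (fun x => p k (c k) x - p (k + 1) (c (k + 1)) x)
          (fun x => G k (k + 1) x - G (k + 1) (k + 1) x)|
      + ∑ k ∈ range N, (2 * TN N M (k + 1) (c (k + 1)) (G (k + 1) (k + 1))
        + 13 * ∑ s : Fin 4, ∑ r ∈ range (N - (k + 1)), (1 / 2 : ℝ) ^ r *
            TN N M (k + 2 + r) (c (k + 2 + r)) (sF (k + 1) s (G (k + 1) (k + 1)))
        + 6 * (1 / 2 : ℝ) ^ (N - (k + 1)) *
            ∑ s : Fin 4, top N M (sF (k + 1) s (G (k + 1) (k + 1)))) := by
  rw [abel_id]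
  have h1 := abs_sum_le_sum_abs (fun k => In N M (p k (c k)) (fun x => G k k x - G k (k + 1) x))
    (range N)
  have h2 := abs_sum_le_sum_abs (fun k => In N M
    (fun x => p k (c k) x - p (k + 1) (c (k + 1)) x)
    (fun x => G k (k + 1) x - G (k + 1) (k + 1) x)) (range N)
  have h3 := abs_sum_le_sum_abs (fun k => In N M
    (fun x => p k (c k) x - p (k + 1) (c (k + 1)) x) (G (k + 1) (k + 1))) (range N)
  have h4 := sum_le_sum fun k (hk : k ∈ range N) =>
    kap_le (by rw [mem_range] at hk; omega : k + 1 ≤ N) M hc (G (k + 1) (k + 1))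
  have t1 : ∀ a b c d e : ℝ, |a - b - c - d - e| ≤ |a| + |b| + |c| + |d| + |e| := by
    intro a b c d e
    refine (abs_sub _ _).trans (add_le_add ?_ le_rfl)
    refine (abs_sub _ _).trans (add_le_add ?_ le_rfl)
    refine (abs_sub _ _).trans (add_le_add ?_ le_rfl)
    exact abs_sub _ _
  refine (t1 _ _ _ _ _).trans ?_
  linarith

end

end Vale.Agent.P141.H352
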