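import Vale.Agent.P141.PL.Defs

/-!
# P141, line (A): the Abel line with the exact hat averages

`Hat k t f`: the mean of `f (t - i - j)` over `0 ≤ i, j < 2 ^ k`.
`Rk c k x0 x1 x3 f`: the mean of `f (c - x0 - y1 - y3)` over the cells of scale `k` of `x1`, `x3`.
`Rk_sub`: the difference of two consecutive scales.  `abel`: summation by parts.
-/

namespace Vale.Agent.P141.H352

open Finset
open Vale.Agent.P141.PL

noncomputable section

set_option linter.unusedSectionVars false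

variable {V : Type*} [AddCommGroup V] [Module ℝ V]

/-- the mean of `f (t - i - j)` over the square of side `2 ^ k` -/
def Hat (k : ℕ) (t : ℤ) (f : ℤ → V) : V :=
  ((4 : ℝ) ^ k)⁻¹ • ∑ i ∈ range (2 ^ k), ∑ j ∈ range (2 ^ k), f (t - i - j)

/-- the mean of `f (c - x0 - y1 - y3)` over the cells of scale `k` of `x1` and `x3` -/
def Rk (c : ℤ) (k : ℕ) (x0 x1 x3 : ℤ) (f : ℤ → V) : V :=
  Hat k (c - x0 - 2 ^ k * (ix k x1 + ix k x3)) f

theorem sum_iv (k : ℕ) (m : ℤ) (g : ℤ → V) :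
    ∑ y ∈ iv k m, g y = ∑ i ∈ range (2 ^ k), g (2 ^ k * m + i) := by
  unfold iv
  have e : (2 : ℤ) ^ k * m + 2 ^ k = 2 ^ k * m + ((2 ^ k : ℕ) : ℤ) := by push_cast; ring
  rw [e]
  symm
  refine sum_bij (fun (i : ℕ) _ => 2 ^ k * m + (i : ℤ)) ?_ ?_ ?_ ?_
  · intro i hi
    rw [mem_range] at hi
    rw [mem_Ico]
    constructor
    · omega
    · have : (i : ℤ) < ((2 ^ k : ℕ) : ℤ) := by exact_mod_cast hi
      linarith
  · intro i _ j _ h
    have h' : (2 : ℤ) ^ k * m + (i : ℤ) = 2 ^ k * m + (j : ℤ) := h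
    have : (i : ℤ) = (j : ℤ) := by linarith
    exact_mod_cast this
  · intro y hy
    rw [mem_Ico] at hy
    refine ⟨(y - 2 ^ k * m).toNat, ?_, ?_⟩
    · rw [mem_range]
      have : ((y - 2 ^ k * m).toNat : ℤ) = y - 2 ^ k * m := Int.toNat_of_nonneg (by linarith)
      have h2 : ((y - 2 ^ k * m).toNat : ℤ) < ((2 ^ k : ℕ) : ℤ) := by rw [this]; linarith
      exact_mod_cast h2
    · have : ((y - 2 ^ k * m).toNat : ℤ) = y - 2 ^ k * m := Int.toNat_of_nonneg (by linarith)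
      show 2 ^ k * m + ((y - 2 ^ k * m).toNat : ℤ) = y
      rw [this]; ring
  · intro i _; rfl

/-- **`Rk` as an average over the cells.** -/
theorem Rk_eq (c : ℤ) (k : ℕ) (x0 x1 x3 : ℤ) (f : ℤ → V) :
    Rk c k x0 x1 x3 f = ((4 : ℝ) ^ k)⁻¹ •
      ∑ y1 ∈ iv k (ix k x1), ∑ y3 ∈ iv k (ix k x3), f (c - x0 - y1 - y3) := by
  unfold Rk Hat
  rw [sum_iv]
  congr 1
  refine sum_congr rfl fun i _ => ?_
  rw [sum_iv]
  refine sum_congr rfl fun j _ => ?_
  congr 1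
  ring

theorem Hat_zero (t : ℤ) (f : ℤ → V) : Hat 0 t f = f t := by
  unfold Hat
  simp

theorem Rk_zero (c : ℤ) (x0 x1 x3 : ℤ) (f : ℤ → V) :
    Rk c 0 x0 x1 x3 f = f (c - x0 - x1 - x3) := by
  unfold Rk
  rw [Hat_zero, ix_zero, ix_zero]
  congr 1
  ring

theorem Hat_add (k : ℕ) (t : ℤ) (f g : ℤ → V) :
    Hat k t (fun x => f x + g x) = Hat k t f + Hat k t g := by
  unfold Hat
  simp only [sum_add_distrib, smul_add]

theorem Hat_smul (k : ℕ) (t : ℤ) (r : ℝ) (f : ℤ → V) :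
    Hat k t (fun x => r • f x) = r • Hat k t f := by
  unfold Hat
  simp only [← smul_sum]
  rw [smul_comm]

/-- a sum over twice the range -/
theorem sum_two (n : ℕ) (g : ℕ → V) :
    ∑ i ∈ range (2 * n), g i = ∑ i ∈ range n, g i + ∑ i ∈ range n, g (n + i) := by
  rw [two_mul, sum_range_add]

/-- **The two-scale relation.** -/
theorem Hat_succ (k : ℕ) (t : ℤ) (f : ℤ → V) :
    Hat (k + 1) t f =
      (4 : ℝ)⁻¹ • (Hat k t f + (2 : ℝ) • Hat k (t - 2 ^ k) f + Hat k (t - 2 ^ k - 2 ^ k) f) := by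
  unfold Hat
  have e0 : (2 : ℕ) ^ (k + 1) = 2 * 2 ^ k := by rw [pow_succ]; ring
  have e1 : ((4 : ℝ) ^ (k + 1))⁻¹ = (4 : ℝ)⁻¹ * ((4 : ℝ) ^ k)⁻¹ := by
    rw [pow_succ, mul_inv]; ring
  rw [e0, sum_two]
  simp only [sum_two]
  simp only [sum_add_distrib]
  rw [e1, mul_smul, smul_comm (2 : ℝ), ← smul_add, ← smul_add]
  congr 2
  have h1 : ∀ i j : ℕ, f (t - (i : ℤ) - ((2 ^ k + j : ℕ) : ℤ)) = f (t - 2 ^ k - i - j) := by
    intro i j; congr 1; push_cast; ring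
  have h2 : ∀ i j : ℕ, f (t - ((2 ^ k + i : ℕ) : ℤ) - (j : ℤ)) = f (t - 2 ^ k - i - j) := by
    intro i j; congr 1; push_cast; ring
  have h3 : ∀ i j : ℕ, f (t - ((2 ^ k + i : ℕ) : ℤ) - ((2 ^ k + j : ℕ) : ℤ)) =
      f (t - 2 ^ k - 2 ^ k - i - j) := by
    intro i j; congr 1; push_cast; ring
  simp only [h3]
  simp only [h1, h2]
  rw [two_smul]
  abel

theorem ix_succ (k : ℕ) (x : ℤ) : ix k x / 2 = ix (k + 1) x := by
  have := ix_ix k 1 x
  unfold ix at this ⊢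
  simpa using this

/-- the sign and the digit -/
theorem hs_digit (k : ℕ) (x : ℤ) :
    (ix k x = 2 * ix (k + 1) x ∧ hs (k + 1) x = 1) ∨
      (ix k x = 2 * ix (k + 1) x + 1 ∧ hs (k + 1) x = -1) := by
  have h1 := ix_succ k x
  have h2 : hs (k + 1) x = if ix k x % 2 = 0 then 1 else -1 := by
    unfold hs
    rw [Nat.add_sub_cancel]
  by_cases h : ix k x % 2 = 0
  · left
    refine ⟨by omega, ?_⟩
    rw [h2, if_pos h]
  · right
    refine ⟨by omega, ?_⟩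
    rw [h2, if_neg h]

/-- **The difference of two consecutive scales**: for the signs `s1`, `s3` of `x1`, `x3` it is
`(s1 + s3) / 4` times a first difference plus `s1 s3 / 4` times a second difference of hat
averages. -/
theorem Rk_sub (c : ℤ) (k : ℕ) (x0 x1 x3 : ℤ) (f : ℤ → V) (t : ℤ)
    (ht : t = c - x0 - 2 ^ (k + 1) * (ix (k + 1) x1 + ix (k + 1) x3)) :
    Rk c k x0 x1 x3 f - Rk c (k + 1) x0 x1 x3 f =
      ((hs (k + 1) x1 + hs (k + 1) x3) / 4) • (Hat k t f - Hat k (t - 2 ^ k - 2 ^ k) f) +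
      (hs (k + 1) x1 * hs (k + 1) x3 / 4) •
        (Hat k t f - (2 : ℝ) • Hat k (t - 2 ^ k) f + Hat k (t - 2 ^ k - 2 ^ k) f) := by
  have e : Rk c (k + 1) x0 x1 x3 f = Hat (k + 1) t f := by unfold Rk; rw [ht]
  rw [e, Hat_succ]
  unfold Rk
  rcases hs_digit k x1 with ⟨h1, s1⟩ | ⟨h1, s1⟩ <;> rcases hs_digit k x3 with ⟨h3, s3⟩ | ⟨h3, s3⟩
  · have e1 : c - x0 - 2 ^ k * (ix k x1 + ix k x3) = t := by rw [ht, h1, h3]; ring
    rw [e1, s1, s3]
    module
  · have e1 : c - x0 - 2 ^ k * (ix k x1 + ix k x3) = t - 2 ^ k := by rw [ht, h1, h3]; ring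
    rw [e1, s1, s3]
    module
  · have e1 : c - x0 - 2 ^ k * (ix k x1 + ix k x3) = t - 2 ^ k := by rw [ht, h1, h3]; ring
    rw [e1, s1, s3]
    module
  · have e1 : c - x0 - 2 ^ k * (ix k x1 + ix k x3) = t - 2 ^ k - 2 ^ k := by
      rw [ht, h1, h3]; ring
    rw [e1, s1, s3]
    module

/-- the signed average over the cells of `x1`, `x3`: the profile of the sign of `x1` -/
theorem avg_h1 (c : ℤ) (k : ℕ) (x0 x1 x3 : ℤ) (f : ℤ → V) (t : ℤ)
    (ht : t = c - x0 - 2 ^ (k + 1) * (ix (k + 1) x1 + ix (k + 1) x3)) :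
    ((4 : ℝ) ^ (k + 1))⁻¹ • ∑ y1 ∈ iv (k + 1) (ix (k + 1) x1), ∑ y3 ∈ iv (k + 1) (ix (k + 1) x3),
      hs (k + 1) y1 • f (c - x0 - y1 - y3) =
      (4 : ℝ)⁻¹ • (Hat k t f - Hat k (t - 2 ^ k - 2 ^ k) f) := by
  have e0 : (2 : ℕ) ^ (k + 1) = 2 * 2 ^ k := by rw [pow_succ]; ring
  have e1 : ((4 : ℝ) ^ (k + 1))⁻¹ = (4 : ℝ)⁻¹ * ((4 : ℝ) ^ k)⁻¹ := by
    rw [pow_succ, mul_inv]; ring
  have g1 : ∀ i : ℕ, i ∈ range (2 ^ k) →
      hs (k + 1) (2 ^ (k + 1) * ix (k + 1) x1 + (i : ℤ)) = 1 := by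
    intro i hi
    rw [mem_range] at hi
    have hi' : (i : ℤ) < 2 ^ k := by exact_mod_cast hi
    unfold hs
    rw [Nat.add_sub_cancel, if_pos]
    have : ix k (2 ^ (k + 1) * ix (k + 1) x1 + (i : ℤ)) = 2 * ix (k + 1) x1 := by
      rw [← mem_iv]
      unfold iv
      rw [mem_Ico, pow_succ]
      constructor <;> nlinarith [hi', (Int.natCast_nonneg i)]
    rw [this]
    omega
  have g2 : ∀ i : ℕ, i ∈ range (2 ^ k) →
      hs (k + 1) (2 ^ (k + 1) * ix (k + 1) x1 + ((2 ^ k + i : ℕ) : ℤ)) = -1 := by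
    intro i hi
    rw [mem_range] at hi
    have hi' : (i : ℤ) < 2 ^ k := by exact_mod_cast hi
    unfold hs
    rw [Nat.add_sub_cancel, if_neg]
    have : ix k (2 ^ (k + 1) * ix (k + 1) x1 + ((2 ^ k + i : ℕ) : ℤ)) =
        2 * ix (k + 1) x1 + 1 := by
      rw [← mem_iv]
      unfold iv
      rw [mem_Ico, pow_succ]
      push_cast
      constructor <;> nlinarith [hi', (Int.natCast_nonneg i)]
    rw [this]
    omega
  have a1 : ∑ i ∈ range (2 ^ k), ∑ y3 ∈ iv (k + 1) (ix (k + 1) x3),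
      hs (k + 1) (2 ^ (k + 1) * ix (k + 1) x1 + (i : ℤ)) •
        f (c - x0 - (2 ^ (k + 1) * ix (k + 1) x1 + (i : ℤ)) - y3) =
      ∑ i ∈ range (2 ^ k), (∑ j ∈ range (2 ^ k), f (t - i - j) +
        ∑ j ∈ range (2 ^ k), f (t - 2 ^ k - i - j)) := by
    refine sum_congr rfl fun i hi => ?_
    rw [sum_iv, e0, sum_two]
    refine congrArg₂ (· + ·) (sum_congr rfl fun j _ => ?_) (sum_congr rfl fun j _ => ?_)
    · rw [g1 i hi, one_smul]
      congr 1
      rw [ht]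
      ring
    · rw [g1 i hi, one_smul]
      congr 1
      rw [ht]
      push_cast
      ring
  have a2 : ∑ i ∈ range (2 ^ k), ∑ y3 ∈ iv (k + 1) (ix (k + 1) x3),
      hs (k + 1) (2 ^ (k + 1) * ix (k + 1) x1 + ((2 ^ k + i : ℕ) : ℤ)) •
        f (c - x0 - (2 ^ (k + 1) * ix (k + 1) x1 + ((2 ^ k + i : ℕ) : ℤ)) - y3) =
      ∑ i ∈ range (2 ^ k), (-∑ j ∈ range (2 ^ k), f (t - 2 ^ k - i - j) -
        ∑ j ∈ range (2 ^ k), f (t - 2 ^ k - 2 ^ k - i - j)) := by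
    refine sum_congr rfl fun i hi => ?_
    rw [sum_iv, e0, sum_two, sub_eq_add_neg (-∑ j ∈ range (2 ^ k), f (t - 2 ^ k - (i : ℤ) - j)),
      ← sum_neg_distrib, ← sum_neg_distrib]
    refine congrArg₂ (· + ·) (sum_congr rfl fun j _ => ?_) (sum_congr rfl fun j _ => ?_)
    · rw [g2 i hi, neg_one_smul]
      congr 2
      rw [ht]
      push_cast
      ring
    · rw [g2 i hi, neg_one_smul]
      congr 2
      rw [ht]
      push_cast
      ring
  have a0 : ∑ y1 ∈ iv (k + 1) (ix (k + 1) x1), ∑ y3 ∈ iv (k + 1) (ix (k + 1) x3),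
      hs (k + 1) y1 • f (c - x0 - y1 - y3) =
      ∑ i ∈ range (2 ^ k), (∑ j ∈ range (2 ^ k), f (t - i - j) +
        ∑ j ∈ range (2 ^ k), f (t - 2 ^ k - i - j)) +
      ∑ i ∈ range (2 ^ k), (-∑ j ∈ range (2 ^ k), f (t - 2 ^ k - i - j) -
        ∑ j ∈ range (2 ^ k), f (t - 2 ^ k - 2 ^ k - i - j)) := by
    rw [← a1, ← a2, sum_iv, e0, sum_two]
  rw [a0]
  simp only [sum_add_distrib, sum_sub_distrib, sum_neg_distrib]
  unfold Hat
  rw [e1, mul_smul, ← smul_sub]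
  congr 2
  abel

/-- **Summation by parts** along the chain of scales, pointwise: `V k` the moving slot, `P k` the
cell means of the problem, `R k` the exact averages. -/
theorem abel_sum {W : Type*} [NormedAddCommGroup W] [InnerProductSpace ℝ W] (K : ℕ)
    (v P R : ℕ → W) :
    ∑ k ∈ range K, (inner ℝ (v k - v (k + 1)) (P (k + 1)) : ℝ) =
      inner ℝ (v 0) (R 0) - inner ℝ (v K) (R K)
        - ∑ k ∈ range K, (inner ℝ (v (k + 1)) (R k - R (k + 1)) : ℝ)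
        - ∑ k ∈ range K, (inner ℝ (v k - v (k + 1)) (R k - R (k + 1)) : ℝ)
        + ∑ k ∈ range K, (inner ℝ (v k - v (k + 1)) (P (k + 1) - R (k + 1)) : ℝ) := by
  induction K with
  | zero => simp
  | succ K ih =>
    rw [sum_range_succ, sum_range_succ, sum_range_succ, sum_range_succ, ih]
    simp only [inner_sub_left, inner_sub_right]
    ring

end

end Vale.Agent.P141.H352
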