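import Vale.Agent.P141.PL.Defs

/-!
# P141, line (A), T7c: a neighbour difference is a chain of gaps of coarser cells

`G k m` (cell `m` of scale `k`) with exact dyadic means.  `gp G k m` : half difference of the two
children of the cell `m` of scale `k + 1`.  `nd G k m = G k m - G k (m - 1)`.
`nd_chain` : `nd G k m` is the sum over `i` of gaps of scale `k + i + 1` of the cells which have the
jump `m * 2 ^ k` at an end (`2 ^ (i + 1) ∣ m`) or at the centre (`2 ^ i ∣ m` only, last piece).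
-/

namespace Vale.Agent.P141.H352

open Finset

noncomputable section Chain

variable {V : Type*} [AddCommGroup V] [Module ℝ V]

/-- exact means up to the scale `N` -/
def Avg (N : ℕ) (G : ℕ → ℤ → V) : Prop :=
  ∀ k, k < N → ∀ m, G (k + 1) m = (1 / 2 : ℝ) • (G k (2 * m) + G k (2 * m + 1))

/-- the gap of the cell `m` of scale `k + 1` -/
def gp (G : ℕ → ℤ → V) (k : ℕ) (m : ℤ) : V := (1 / 2 : ℝ) • (G k (2 * m + 1) - G k (2 * m))

/-- neighbour difference at the scale `k` -/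
def nd (G : ℕ → ℤ → V) (k : ℕ) (m : ℤ) : V := G k m - G k (m - 1)

theorem child_lo {N : ℕ} {G : ℕ → ℤ → V} (h : Avg N G) {k : ℕ} (hk : k < N) (m : ℤ) :
    G k (2 * m) = G (k + 1) m - gp G k m := by
  unfold gp
  rw [h k hk m]
  module

theorem child_hi {N : ℕ} {G : ℕ → ℤ → V} (h : Avg N G) {k : ℕ} (hk : k < N) (m : ℤ) :
    G k (2 * m + 1) = G (k + 1) m + gp G k m := by
  unfold gp
  rw [h k hk m]
  module

theorem nd_odd (G : ℕ → ℤ → V) (k : ℕ) (m : ℤ) : nd G k (2 * m + 1) = (2 : ℝ) • gp G k m := by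
  unfold nd gp
  rw [add_sub_cancel_right]
  module

theorem nd_even {N : ℕ} {G : ℕ → ℤ → V} (h : Avg N G) {k : ℕ} (hk : k < N) (m : ℤ) :
    nd G k (2 * m) = nd G (k + 1) m - gp G k m - gp G k (m - 1) := by
  unfold nd
  rw [show 2 * m - 1 = 2 * (m - 1) + 1 by ring, child_lo h hk, child_hi h hk]
  abel

/-- the piece of the cells of scale `k + i + 1` -/
def pc (G : ℕ → ℤ → V) (k i : ℕ) (m : ℤ) : V :=
  if (2 : ℤ) ^ (i + 1) ∣ m then
    -gp G (k + i) (m / 2 ^ (i + 1)) - gp G (k + i) (m / 2 ^ (i + 1) - 1)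
  else if (2 : ℤ) ^ i ∣ m then (2 : ℝ) • gp G (k + i) (m / 2 ^ (i + 1)) else 0

/-- the rest after `n` steps -/
def rs (G : ℕ → ℤ → V) (k n : ℕ) (m : ℤ) : V :=
  if (2 : ℤ) ^ n ∣ m then nd G (k + n) (m / 2 ^ n) else 0

theorem rs_zero (G : ℕ → ℤ → V) (k : ℕ) (m : ℤ) : rs G k 0 m = nd G k m := by
  unfold rs
  simp

theorem rs_succ {N : ℕ} {G : ℕ → ℤ → V} (h : Avg N G) {k n : ℕ} (hk : k + n < N) (m : ℤ) :
    rs G k n m = pc G k n m + rs G k (n + 1) m := by
  unfold rs pc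
  by_cases h1 : (2 : ℤ) ^ (n + 1) ∣ m
  · obtain ⟨q, rfl⟩ := h1
    have e1 : (2 : ℤ) ^ (n + 1) * q / 2 ^ (n + 1) = q := Int.mul_ediv_cancel_left _ (by positivity)
    have e2 : (2 : ℤ) ^ (n + 1) * q / 2 ^ n = 2 * q := by
      rw [pow_succ, mul_assoc]
      exact Int.mul_ediv_cancel_left _ (by positivity)
    rw [if_pos (dvd_mul_right _ _), if_pos (dvd_mul_right _ _),
      if_pos (Dvd.intro (2 * q) (by ring)), e1, e2, nd_even h hk]
    rw [← add_assoc]
    abel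
  · rw [if_neg h1, if_neg h1, add_zero]
    by_cases h2 : (2 : ℤ) ^ n ∣ m
    · rw [if_pos h2, if_pos h2]
      obtain ⟨q, rfl⟩ := h2
      have e2 : (2 : ℤ) ^ n * q / 2 ^ n = q := Int.mul_ediv_cancel_left _ (by positivity)
      rcases Int.even_or_odd' q with ⟨w, rfl | rfl⟩
      · exact absurd (Dvd.intro w (by ring)) h1
      · have e1 : (2 : ℤ) ^ n * (2 * w + 1) / 2 ^ (n + 1) = w := by
          rw [pow_succ, ← Int.ediv_ediv_of_nonneg (by positivity), e2]
          omega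
        rw [e1, e2, nd_odd]
    · rw [if_neg h2, if_neg h2]

/-- **The chain up.** -/
theorem nd_chain {N : ℕ} {G : ℕ → ℤ → V} (h : Avg N G) {k n : ℕ} (hk : k + n ≤ N) (m : ℤ) :
    nd G k m = ∑ i ∈ range n, pc G k i m + rs G k n m := by
  induction n with
  | zero => rw [range_zero, sum_empty, zero_add, rs_zero]
  | succ n ih =>
    rw [ih (by omega), sum_range_succ, rs_succ h (by omega)]
    abel

/-- at most one piece is a centre piece, and it is the last piece which is not zero -/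
theorem pc_eq_zero {G : ℕ → ℤ → V} {k i : ℕ} {m : ℤ} (h : ¬ (2 : ℤ) ^ i ∣ m) : pc G k i m = 0 := by
  unfold pc
  rw [if_neg fun h2 => h ((pow_dvd_pow _ (Nat.le_succ i)).trans h2), if_neg h]

/-- the gap is linear in the family -/
theorem gp_smul (a : ℝ) (G : ℕ → ℤ → V) (k : ℕ) (m : ℤ) :
    gp (fun k m => a • G k m) k m = a • gp G k m := by
  unfold gp
  module

/-- **Energy**: one quadratic functional `q` (with `q (x + y) ≤ (1 + s) q x + (1 + 1 / s) q y`) -/
theorem pc_q_le {q : V → ℝ} (q0 : q 0 = 0) (qn : ∀ x, q (-x) = q x) (qs : ∀ x, q ((2 : ℝ) • x) = 4 * q x)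
    (q_nonneg : ∀ x, 0 ≤ q x) (qa : ∀ x y, q (x + y) ≤ 2 * q x + 2 * q y)
    (G : ℕ → ℤ → V) (k i : ℕ) (m : ℤ) :
    q (pc G k i m) ≤ if (2 : ℤ) ^ i ∣ m then
      4 * (q (gp G (k + i) (m / 2 ^ (i + 1))) +
        if (2 : ℤ) ^ (i + 1) ∣ m then q (gp G (k + i) (m / 2 ^ (i + 1) - 1)) else 0) else 0 := by
  unfold pc
  by_cases h1 : (2 : ℤ) ^ (i + 1) ∣ m
  · rw [if_pos h1, if_pos h1, if_pos ((pow_dvd_pow _ (Nat.le_succ i)).trans h1), sub_eq_add_neg]
    have h := qa (-gp G (k + i) (m / 2 ^ (i + 1))) (-gp G (k + i) (m / 2 ^ (i + 1) - 1))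
    rw [qn, qn] at h
    have h2 := q_nonneg (gp G (k + i) (m / 2 ^ (i + 1)))
    have h3 := q_nonneg (gp G (k + i) (m / 2 ^ (i + 1) - 1))
    linarith
  · rw [if_neg h1, if_neg h1]
    by_cases h2 : (2 : ℤ) ^ i ∣ m
    · rw [if_pos h2, if_pos h2, qs, add_zero]
    · rw [if_neg h2, if_neg h2, q0]

end Chain

end Vale.Agent.P141.H352
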