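import Vale.Agent.P141.H352.Plane

/-!
# P141, line (A), real ties: the step of the Abel line as a sum of three-gap node forms

`gf b K m`: gap function of scale `K` on the cell `m`: `b = true` the Haar sign, `b = false` the
difference of the indicators of the cells `m` and `m - 1`.
`nf`: node form with a gap in each of the three variables.  `TN`: the sum of their absolute values
over the planes `c - 2, …, c + 2`, at least one gap being a Haar sign.
`D_le`: the first difference of planes.  `kap_le`: the step of the Abel line.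
-/

namespace Vale.Agent.P141.H352

open Finset
open Vale.Agent.P141.PL

noncomputable section

/-- gap function -/
def gf (b : Bool) (K : ℕ) (m x : ℤ) : ℝ :=
  if b then (if ix K x = m then hs K x else 0)
  else (if ix K x = m then 1 else 0) - (if ix K x + 1 = m then 1 else 0)

/-- coefficient of a gap function on its cell -/
def ga (b : Bool) (K : ℕ) (x : ℤ) : ℝ := if b then hs K x else 1

/-- coefficient of a gap function on the left neighbour, up to the sign -/
def gb (b : Bool) : ℝ := if b then 0 else 1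

theorem gf_eq (b : Bool) (K : ℕ) (m x : ℤ) :
    gf b K m x = (if ix K x = m then ga b K x else 0) - (if ix K x + 1 = m then gb b else 0) := by
  unfold gf ga gb
  cases b <;> simp

/-- the cells of scale `K` of the root cell `a` of scale `N`, and one more on the right -/
def W (N K : ℕ) (a : ℤ) : Finset ℤ := Icc (2 ^ (N - K) * a) (2 ^ (N - K) * a + 2 ^ (N - K))

theorem sum_gf {N K : ℕ} (hK : K ≤ N) {a x : ℤ} (hx : ix N x = a) (b : Bool) (φ : ℤ → ℝ) :
    ∑ m ∈ W N K a, gf b K m x * φ m = ga b K x * φ (ix K x) - gb b * φ (ix K x + 1) := by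
  have h0 : ix K x ∈ iv (N - K) a := by
    rw [mem_iv, ix_ix, Nat.add_sub_cancel' hK, hx]
  unfold iv at h0
  rw [mem_Ico] at h0
  have h1 : ix K x ∈ W N K a := by
    unfold W; rw [mem_Icc]; constructor <;> linarith [h0.1, h0.2]
  have h2 : ix K x + 1 ∈ W N K a := by
    unfold W; rw [mem_Icc]; constructor <;> linarith [h0.1, h0.2]
  simp only [gf_eq, sub_mul, ite_mul, zero_mul]
  rw [sum_sub_distrib, sum_ite_eq, sum_ite_eq, if_pos h1, if_pos h2]

/-- the nodes on the plane `j` -/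
def nds (N : ℕ) (M : Pt) (K : ℕ) (j : ℤ) : Finset Pt :=
  (W N K M.1 ×ˢ W N K M.2.1 ×ˢ W N K M.2.2).filter fun m => m.1 + m.2.1 + m.2.2 = j

/-- node form: a gap in each variable -/
def nf (N : ℕ) (M : Pt) (K : ℕ) (τ : Bool × Bool × Bool) (m : Pt) (F : Pt → ℝ) : ℝ :=
  ((2 : ℝ) ^ K)⁻¹ * ∑ x ∈ cb N M,
    gf τ.1 K m.1 x.1 * gf τ.2.1 K m.2.1 x.2.1 * gf τ.2.2 K m.2.2 x.2.2 * F x

/-- the kernel of the sum of the node forms over a plane -/
def kern (K : ℕ) (τ : Bool × Bool × Bool) (j : ℤ) (x : Pt) : ℝ :=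
  ga τ.1 K x.1 * ga τ.2.1 K x.2.1 * ga τ.2.2 K x.2.2 * p K j x
    - (gb τ.1 * ga τ.2.1 K x.2.1 * ga τ.2.2 K x.2.2 + ga τ.1 K x.1 * gb τ.2.1 * ga τ.2.2 K x.2.2
      + ga τ.1 K x.1 * ga τ.2.1 K x.2.1 * gb τ.2.2) * p K (j - 1) x
    + (gb τ.1 * gb τ.2.1 * ga τ.2.2 K x.2.2 + gb τ.1 * ga τ.2.1 K x.2.1 * gb τ.2.2
      + ga τ.1 K x.1 * gb τ.2.1 * gb τ.2.2) * p K (j - 2) x
    - gb τ.1 * gb τ.2.1 * gb τ.2.2 * p K (j - 3) x

theorem node_id {N K : ℕ} (hK : K ≤ N) (M : Pt) (τ : Bool × Bool × Bool) (j : ℤ) (F : Pt → ℝ) :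
    ∑ m ∈ nds N M K j, nf N M K τ m F = ∑ x ∈ cb N M, kern K τ j x * F x := by
  unfold nf
  rw [← mul_sum, sum_comm, mul_sum]
  refine sum_congr rfl fun x hx => ?_
  have hx' : cx N x = M := mem_cb.1 hx
  have e1 : ix N x.1 = M.1 := by rw [← hx']; rfl
  have e2 : ix N x.2.1 = M.2.1 := by rw [← hx']; rfl
  have e3 : ix N x.2.2 = M.2.2 := by rw [← hx']; rfl
  have key : ∑ m ∈ nds N M K j,
      gf τ.1 K m.1 x.1 * gf τ.2.1 K m.2.1 x.2.1 * gf τ.2.2 K m.2.2 x.2.2 * F x =
      (∑ m1 ∈ W N K M.1, gf τ.1 K m1 x.1 * ∑ m2 ∈ W N K M.2.1, gf τ.2.1 K m2 x.2.1 *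
        ∑ m3 ∈ W N K M.2.2, gf τ.2.2 K m3 x.2.2 * (if m1 + m2 + m3 = j then 1 else 0)) * F x := by
    unfold nds
    rw [sum_filter, sum_product, sum_mul]
    refine sum_congr rfl fun m1 _ => ?_
    rw [sum_product, mul_sum, sum_mul]
    refine sum_congr rfl fun m2 _ => ?_
    rw [mul_sum, mul_sum, sum_mul]
    refine sum_congr rfl fun m3 _ => ?_
    dsimp only
    split_ifs <;> ring
  rw [key]
  have h3 : ∀ m1 m2 : ℤ, ∑ m3 ∈ W N K M.2.2, gf τ.2.2 K m3 x.2.2 *
      (if m1 + m2 + m3 = j then (1 : ℝ) else 0) =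
      ga τ.2.2 K x.2.2 * (if m1 + m2 + ix K x.2.2 = j then (1 : ℝ) else 0)
        - gb τ.2.2 * (if m1 + m2 + (ix K x.2.2 + 1) = j then (1 : ℝ) else 0) := fun m1 m2 =>
    sum_gf hK e3 τ.2.2 fun m3 => if m1 + m2 + m3 = j then (1 : ℝ) else 0
  simp only [h3]
  have h2 : ∀ m1 : ℤ, ∑ m2 ∈ W N K M.2.1, gf τ.2.1 K m2 x.2.1 *
      (ga τ.2.2 K x.2.2 * (if m1 + m2 + ix K x.2.2 = j then (1 : ℝ) else 0)
        - gb τ.2.2 * (if m1 + m2 + (ix K x.2.2 + 1) = j then (1 : ℝ) else 0)) = _ := fun m1 =>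
    sum_gf hK e2 τ.2.1 fun m2 =>
      (ga τ.2.2 K x.2.2 * (if m1 + m2 + ix K x.2.2 = j then (1 : ℝ) else 0)
        - gb τ.2.2 * (if m1 + m2 + (ix K x.2.2 + 1) = j then (1 : ℝ) else 0))
  simp only [h2]
  have h1 := sum_gf hK e1 τ.1 fun m1 =>
    ga τ.2.1 K x.2.1 *
      (ga τ.2.2 K x.2.2 * (if m1 + ix K x.2.1 + ix K x.2.2 = j then (1 : ℝ) else 0)
        - gb τ.2.2 * (if m1 + ix K x.2.1 + (ix K x.2.2 + 1) = j then (1 : ℝ) else 0))
    - gb τ.2.1 *
      (ga τ.2.2 K x.2.2 * (if m1 + (ix K x.2.1 + 1) + ix K x.2.2 = j then (1 : ℝ) else 0)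
        - gb τ.2.2 * (if m1 + (ix K x.2.1 + 1) + (ix K x.2.2 + 1) = j then (1 : ℝ) else 0))
  rw [h1]
  set s := ix K x.1 + ix K x.2.1 + ix K x.2.2 with hs0
  have i0 : (if ix K x.1 + ix K x.2.1 + ix K x.2.2 = j then (1 : ℝ) else 0) =
      2 ^ K * p K j x := by
    unfold p; split_ifs <;> simp
  have i1 : (if s + 1 = j then (1 : ℝ) else 0) = 2 ^ K * p K (j - 1) x := by
    unfold p
    by_cases h : s + 1 = j
    · rw [if_pos h, if_pos (by omega)]; simp
    · rw [if_neg h, if_neg (by omega)]; simp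
  have i2 : (if s + 2 = j then (1 : ℝ) else 0) = 2 ^ K * p K (j - 2) x := by
    unfold p
    by_cases h : s + 2 = j
    · rw [if_pos h, if_pos (by omega)]; simp
    · rw [if_neg h, if_neg (by omega)]; simp
  have i3 : (if s + 3 = j then (1 : ℝ) else 0) = 2 ^ K * p K (j - 3) x := by
    unfold p
    by_cases h : s + 3 = j
    · rw [if_pos h, if_pos (by omega)]; simp
    · rw [if_neg h, if_neg (by omega)]; simp
  have a1 : ix K x.1 + ix K x.2.1 + (ix K x.2.2 + 1) = s + 1 := by rw [hs0]; ring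
  have a2 : ix K x.1 + (ix K x.2.1 + 1) + ix K x.2.2 = s + 1 := by rw [hs0]; ring
  have a3 : ix K x.1 + (ix K x.2.1 + 1) + (ix K x.2.2 + 1) = s + 2 := by rw [hs0]; ring
  have a4 : ix K x.1 + 1 + ix K x.2.1 + ix K x.2.2 = s + 1 := by rw [hs0]; ring
  have a5 : ix K x.1 + 1 + ix K x.2.1 + (ix K x.2.2 + 1) = s + 2 := by rw [hs0]; ring
  have a6 : ix K x.1 + 1 + (ix K x.2.1 + 1) + ix K x.2.2 = s + 2 := by rw [hs0]; ring
  have a7 : ix K x.1 + 1 + (ix K x.2.1 + 1) + (ix K x.2.2 + 1) = s + 3 := by rw [hs0]; ring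
  rw [a1, a2, a3, a4, a5, a6, a7, i0, i1, i2, i3]
  have hp : ((2 : ℝ) ^ K)⁻¹ * 2 ^ K = 1 := inv_mul_cancel₀ (by positivity)
  have hk : ((2 : ℝ) ^ K)⁻¹ * ((2 ^ K * kern K τ j x) * F x) = kern K τ j x * F x := by
    rw [← mul_assoc, ← mul_assoc, hp, one_mul]
  rw [← hk]
  congr 2
  unfold kern
  ring

/-- the form of a kernel -/
def In (N : ℕ) (M : Pt) (κ F : Pt → ℝ) : ℝ := ∑ x ∈ cb N M, κ x * F x

/-- at least one sign -/
def TT : Finset (Bool × Bool × Bool) := univ.erase (false, false, false)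

/-- **The three-gap node forms of scale `K` on the planes `c - 2, …, c + 2`.** -/
def TN (N : ℕ) (M : Pt) (K : ℕ) (c : ℤ) (F : Pt → ℝ) : ℝ :=
  ∑ τ ∈ TT, ∑ j ∈ Icc (c - 2) (c + 2), ∑ m ∈ nds N M K j, |nf N M K τ m F|

theorem TN_nonneg (N : ℕ) (M : Pt) (K : ℕ) (c : ℤ) (F : Pt → ℝ) : 0 ≤ TN N M K c F :=
  sum_nonneg fun _ _ => sum_nonneg fun _ _ => sum_nonneg fun _ _ => abs_nonneg _

theorem ker_le {N K : ℕ} (hK : K ≤ N) (M : Pt) {τ : Bool × Bool × Bool} (hτ : τ ∈ TT) {c j : ℤ}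
    (hj : c - 2 ≤ j ∧ j ≤ c + 2) (F κ : Pt → ℝ) (hκ : ∀ x, κ x = kern K τ j x) :
    |In N M κ F| ≤ TN N M K c F := by
  have e : In N M κ F = ∑ m ∈ nds N M K j, nf N M K τ m F := by
    rw [node_id hK]
    unfold In
    exact sum_congr rfl fun x _ => by rw [hκ]
  rw [e]
  refine (abs_sum_le_sum_abs _ _).trans ?_
  unfold TN
  refine le_trans ?_ (single_le_sum (f := fun τ => ∑ j ∈ Icc (c - 2) (c + 2),
    ∑ m ∈ nds N M K j, |nf N M K τ m F|)
    (fun _ _ => sum_nonneg fun _ _ => sum_nonneg fun _ _ => abs_nonneg _) hτ)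
  exact single_le_sum (f := fun j => ∑ m ∈ nds N M K j, |nf N M K τ m F|)
    (fun _ _ => sum_nonneg fun _ _ => abs_nonneg _) (mem_Icc.2 hj)

/-- the signs of scale `k + 1` -/
def h1 (k : ℕ) (x : Pt) : ℝ := hs (k + 1) x.1
@[inherit_doc h1] def h2 (k : ℕ) (x : Pt) : ℝ := hs (k + 1) x.2.1
@[inherit_doc h1] def h3 (k : ℕ) (x : Pt) : ℝ := hs (k + 1) x.2.2

section atoms

variable {N k : ℕ} (hk : k + 1 ≤ N) (M : Pt) {c j : ℤ} (F : Pt → ℝ)
include hk

theorem at1 (hj : c - 2 ≤ j ∧ j ≤ c + 2) :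
    |In N M (fun x => h1 k x * D2 (k + 1) j x) F| ≤ TN N M (k + 1) c F :=
  ker_le hk M (τ := (true, false, false)) (by decide) hj F _ fun x => by
    simp only [kern, ga, gb, h1, D2, if_true, if_false, Bool.false_eq_true]; ring

theorem at2 (hj : c - 2 ≤ j ∧ j ≤ c + 2) :
    |In N M (fun x => h2 k x * D2 (k + 1) j x) F| ≤ TN N M (k + 1) c F :=
  ker_le hk M (τ := (false, true, false)) (by decide) hj F _ fun x => by
    simp only [kern, ga, gb, h2, D2, if_true, if_false, Bool.false_eq_true]; ring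

theorem at3 (hj : c - 2 ≤ j ∧ j ≤ c + 2) :
    |In N M (fun x => h3 k x * D2 (k + 1) j x) F| ≤ TN N M (k + 1) c F :=
  ker_le hk M (τ := (false, false, true)) (by decide) hj F _ fun x => by
    simp only [kern, ga, gb, h3, D2, if_true, if_false, Bool.false_eq_true]; ring

theorem at12 (hj : c - 2 ≤ j ∧ j ≤ c + 2) :
    |In N M (fun x => h1 k x * h2 k x * D (k + 1) j x) F| ≤ TN N M (k + 1) c F :=
  ker_le hk M (τ := (true, true, false)) (by decide) hj F _ fun x => by
    simp only [kern, ga, gb, h1, h2, D, if_true, if_false, Bool.false_eq_true]; ring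

theorem at13 (hj : c - 2 ≤ j ∧ j ≤ c + 2) :
    |In N M (fun x => h1 k x * h3 k x * D (k + 1) j x) F| ≤ TN N M (k + 1) c F :=
  ker_le hk M (τ := (true, false, true)) (by decide) hj F _ fun x => by
    simp only [kern, ga, gb, h1, h3, D, if_true, if_false, Bool.false_eq_true]; ring

theorem at23 (hj : c - 2 ≤ j ∧ j ≤ c + 2) :
    |In N M (fun x => h2 k x * h3 k x * D (k + 1) j x) F| ≤ TN N M (k + 1) c F :=
  ker_le hk M (τ := (false, true, true)) (by decide) hj F _ fun x => by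
    simp only [kern, ga, gb, h2, h3, D, if_true, if_false, Bool.false_eq_true]; ring

theorem at123 (hj : c - 2 ≤ j ∧ j ≤ c + 2) :
    |In N M (fun x => h1 k x * h2 k x * h3 k x * p (k + 1) j x) F| ≤ TN N M (k + 1) c F :=
  ker_le hk M (τ := (true, true, true)) (by decide) hj F _ fun x => by
    simp only [kern, ga, gb, h1, h2, h3, if_true, if_false, Bool.false_eq_true]; ring

end atoms

/-- **The twisted part of the first difference.** -/
theorem G_le {N k : ℕ} (hk : k + 1 ≤ N) (M : Pt) {c j : ℤ} (hj : c ≤ j / 2 ∧ j / 2 ≤ c + 2)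
    (F : Pt → ℝ) :
    |In N M (G k j) F| ≤
      1 / 4 * |In N M (D2 (k + 1) (j / 2)) F| + 5 * TN N M (k + 1) c F := by
  obtain ⟨hj1, hj2⟩ := hj
  set i := j / 2 with hi
  have q0 : c - 2 ≤ i ∧ i ≤ c + 2 := ⟨by linarith, by linarith⟩
  have q1 : c - 2 ≤ i - 1 ∧ i - 1 ≤ c + 2 := ⟨by linarith, by linarith⟩
  have q2 : c - 2 ≤ i - 2 ∧ i - 2 ≤ c + 2 := ⟨by linarith, by linarith⟩
  have b1 := at1 hk M F q0
  have b2 := at2 hk M F q0
  have b3 := at3 hk M F q0
  have b4 := at12 hk M F q0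
  have b5 := at13 hk M F q0
  have b6 := at23 hk M F q0
  have b7 := at12 hk M F q1
  have b8 := at13 hk M F q1
  have b9 := at23 hk M F q1
  have c0 := at123 hk M F q0
  have c1 := at123 hk M F q1
  have c2 := at123 hk M F q2
  have hT := TN_nonneg N M (k + 1) c F
  have h0 := abs_nonneg (In N M (D2 (k + 1) i) F)
  rw [abs_le] at b1 b2 b3 b4 b5 b6 b7 b8 b9 c0 c1 c2
  have d0 := le_abs_self (In N M (D2 (k + 1) i) F)
  have d1 := neg_abs_le (In N M (D2 (k + 1) i) F)
  by_cases hp : j % 2 = 0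
  · have e : In N M (G k j) F =
        -(1 / 4) * In N M (D2 (k + 1) i) F
        + 1 / 4 * In N M (fun x => h1 k x * D2 (k + 1) i x) F
        + 1 / 4 * In N M (fun x => h2 k x * D2 (k + 1) i x) F
        + 1 / 4 * In N M (fun x => h3 k x * D2 (k + 1) i x) F
        + 1 / 4 * In N M (fun x => h1 k x * h2 k x * D (k + 1) i x) F
        + 1 / 4 * In N M (fun x => h1 k x * h3 k x * D (k + 1) i x) F
        + 1 / 4 * In N M (fun x => h2 k x * h3 k x * D (k + 1) i x) F
        + 1 / 4 * In N M (fun x => h1 k x * h2 k x * D (k + 1) (i - 1) x) F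
        + 1 / 4 * In N M (fun x => h1 k x * h3 k x * D (k + 1) (i - 1) x) F
        + 1 / 4 * In N M (fun x => h2 k x * h3 k x * D (k + 1) (i - 1) x) F
        + 1 / 4 * In N M (fun x => h1 k x * h2 k x * h3 k x * p (k + 1) i x) F
        + 6 / 4 * In N M (fun x => h1 k x * h2 k x * h3 k x * p (k + 1) (i - 1) x) F
        + 1 / 4 * In N M (fun x => h1 k x * h2 k x * h3 k x * p (k + 1) (i - 2) x) F := by
      unfold In
      simp only [mul_sum, ← sum_add_distrib]
      refine sum_congr rfl fun x _ => ?_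
      unfold G
      rw [if_pos hp, ← hi]
      unfold e1 e2 e3 h1 h2 h3
      ring
    rw [e, abs_le]
    constructor <;> linarith
  · have e : In N M (G k j) F =
        -(1 / 2) * In N M (fun x => h1 k x * h2 k x * D (k + 1) i x) F
        + -(1 / 2) * In N M (fun x => h1 k x * h3 k x * D (k + 1) i x) F
        + -(1 / 2) * In N M (fun x => h2 k x * h3 k x * D (k + 1) i x) F
        + -1 * In N M (fun x => h1 k x * h2 k x * h3 k x * p (k + 1) i x) F
        + -1 * In N M (fun x => h1 k x * h2 k x * h3 k x * p (k + 1) (i - 1) x) F := by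
      unfold In
      simp only [mul_sum, ← sum_add_distrib]
      refine sum_congr rfl fun x _ => ?_
      unfold G
      rw [if_neg hp, ← hi]
      unfold e2 e3 h1 h2 h3
      ring
    rw [e, abs_le]
    constructor <;> linarith

/-- **The twisted part of the second difference.** -/
theorem G2_le {N k : ℕ} (hk : k + 1 ≤ N) (M : Pt) {c j : ℤ} (hj : c ≤ j / 2 ∧ j / 2 ≤ c + 2)
    (F : Pt → ℝ) : |In N M (G2 k j) F| ≤ 8 * TN N M (k + 1) c F := by
  obtain ⟨hj1, hj2⟩ := hj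
  set i := j / 2 with hi
  have q0 : c - 2 ≤ i ∧ i ≤ c + 2 := ⟨by linarith, by linarith⟩
  have q1 : c - 2 ≤ i - 1 ∧ i - 1 ≤ c + 2 := ⟨by linarith, by linarith⟩
  have q2 : c - 2 ≤ i - 2 ∧ i - 2 ≤ c + 2 := ⟨by linarith, by linarith⟩
  have b1 := at1 hk M F q0
  have b2 := at2 hk M F q0
  have b3 := at3 hk M F q0
  have b4 := at12 hk M F q0
  have b5 := at13 hk M F q0
  have b6 := at23 hk M F q0
  have b7 := at12 hk M F q1
  have b8 := at13 hk M F q1
  have b9 := at23 hk M F q1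
  have c0 := at123 hk M F q0
  have c1 := at123 hk M F q1
  have c2 := at123 hk M F q2
  have hT := TN_nonneg N M (k + 1) c F
  rw [abs_le] at b1 b2 b3 b4 b5 b6 b7 b8 b9 c0 c1 c2
  by_cases hp : j % 2 = 0
  · have e : In N M (G2 k j) F =
        1 / 4 * In N M (fun x => h1 k x * D2 (k + 1) i x) F
        + 1 / 4 * In N M (fun x => h2 k x * D2 (k + 1) i x) F
        + 1 / 4 * In N M (fun x => h3 k x * D2 (k + 1) i x) F
        + 1 / 4 * In N M (fun x => h1 k x * h2 k x * D (k + 1) i x) F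
        + 1 / 4 * In N M (fun x => h1 k x * h3 k x * D (k + 1) i x) F
        + 1 / 4 * In N M (fun x => h2 k x * h3 k x * D (k + 1) i x) F
        + 3 / 4 * In N M (fun x => h1 k x * h2 k x * D (k + 1) (i - 1) x) F
        + 3 / 4 * In N M (fun x => h1 k x * h3 k x * D (k + 1) (i - 1) x) F
        + 3 / 4 * In N M (fun x => h2 k x * h3 k x * D (k + 1) (i - 1) x) F
        + 1 / 4 * In N M (fun x => h1 k x * h2 k x * h3 k x * p (k + 1) i x) F
        + 10 / 4 * In N M (fun x => h1 k x * h2 k x * h3 k x * p (k + 1) (i - 1) x) F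
        + 5 / 4 * In N M (fun x => h1 k x * h2 k x * h3 k x * p (k + 1) (i - 2) x) F := by
      unfold In
      simp only [mul_sum, ← sum_add_distrib]
      refine sum_congr rfl fun x _ => ?_
      unfold G2
      rw [if_pos hp, ← hi]
      unfold e1 e2 e3 h1 h2 h3
      ring
    rw [e, abs_le]
    constructor <;> linarith
  · have e : In N M (G2 k j) F =
        -(1 / 4) * In N M (fun x => h1 k x * D2 (k + 1) i x) F
        + -(1 / 4) * In N M (fun x => h2 k x * D2 (k + 1) i x) F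
        + -(1 / 4) * In N M (fun x => h3 k x * D2 (k + 1) i x) F
        + -(3 / 4) * In N M (fun x => h1 k x * h2 k x * D (k + 1) i x) F
        + -(3 / 4) * In N M (fun x => h1 k x * h3 k x * D (k + 1) i x) F
        + -(3 / 4) * In N M (fun x => h2 k x * h3 k x * D (k + 1) i x) F
        + -(1 / 4) * In N M (fun x => h1 k x * h2 k x * D (k + 1) (i - 1) x) F
        + -(1 / 4) * In N M (fun x => h1 k x * h3 k x * D (k + 1) (i - 1) x) F
        + -(1 / 4) * In N M (fun x => h2 k x * h3 k x * D (k + 1) (i - 1) x) F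
        + -(5 / 4) * In N M (fun x => h1 k x * h2 k x * h3 k x * p (k + 1) i x) F
        + -(10 / 4) * In N M (fun x => h1 k x * h2 k x * h3 k x * p (k + 1) (i - 1) x) F
        + -(1 / 4) * In N M (fun x => h1 k x * h2 k x * h3 k x * p (k + 1) (i - 2) x) F := by
      unfold In
      simp only [mul_sum, ← sum_add_distrib]
      refine sum_congr rfl fun x _ => ?_
      unfold G2
      rw [if_neg hp, ← hi]
      unfold e1 e2 e3 h1 h2 h3
      ring
    rw [e, abs_le]
    constructor <;> linarith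

/-- admissible planes: the letters of `H588.Pl` -/
def Pl (c : ℕ → ℤ) : Prop := ∀ k, 0 ≤ c k - 2 * c (k + 1) ∧ c k - 2 * c (k + 1) ≤ 3

/-- the index of the parent plane stays in the window -/
theorem win {c : ℕ → ℤ} (hc : Pl c) {k : ℕ} {j : ℤ} (hj : c k ≤ j ∧ j ≤ c k + 2) :
    c (k + 1) ≤ j / 2 ∧ j / 2 ≤ c (k + 1) + 2 := by
  have := hc k
  omega

/-- one step -/
theorem w_step {N k : ℕ} (hk : k + 1 ≤ N) (M : Pt) {c : ℕ → ℤ} (hc : Pl c) {j : ℤ}
    (hj : c k ≤ j ∧ j ≤ c k + 2) (F : Pt → ℝ) :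
    |In N M (D k j) F| + |In N M (D2 k j) F| ≤
      1 / 2 * (|In N M (D (k + 1) (j / 2)) F| + |In N M (D2 (k + 1) (j / 2)) F|)
        + 13 * TN N M (k + 1) (c (k + 1)) F := by
  have g1 := G_le hk M (win hc hj) F
  have g2 := G2_le hk M (win hc hj) F
  have e1 : In N M (D k j) F = 1 / 2 * In N M (D (k + 1) (j / 2)) F + In N M (G k j) F := by
    unfold In
    simp only [mul_sum, ← sum_add_distrib]
    refine sum_congr rfl fun x _ => ?_
    rw [D_step]; ring
  have e2 : In N M (D2 k j) F = 1 / 4 * In N M (D2 (k + 1) (j / 2)) F + In N M (G2 k j) F := by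
    unfold In
    simp only [mul_sum, ← sum_add_distrib]
    refine sum_congr rfl fun x _ => ?_
    rw [D2_step]; ring
  have a1 : |In N M (D k j) F| ≤ 1 / 2 * |In N M (D (k + 1) (j / 2)) F| + |In N M (G k j) F| := by
    rw [e1]
    refine (abs_add_le _ _).trans (le_of_eq ?_)
    rw [abs_mul, abs_of_pos (by norm_num : (0 : ℝ) < 1 / 2)]
  have a2 : |In N M (D2 k j) F| ≤
      1 / 4 * |In N M (D2 (k + 1) (j / 2)) F| + |In N M (G2 k j) F| := by
    rw [e2]
    refine (abs_add_le _ _).trans (le_of_eq ?_)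
    rw [abs_mul, abs_of_pos (by norm_num : (0 : ℝ) < 1 / 4)]
  linarith

/-- what is left at the root -/
def top (N : ℕ) (M : Pt) (F : Pt → ℝ) : ℝ := |((2 : ℝ) ^ N)⁻¹ * ∑ x ∈ cb N M, F x|

theorem top_nonneg (N : ℕ) (M : Pt) (F : Pt → ℝ) : 0 ≤ top N M F := abs_nonneg _

theorem In_p_top (N : ℕ) (M : Pt) (j : ℤ) (F : Pt → ℝ) : |In N M (p N j) F| ≤ top N M F := by
  unfold In top
  by_cases h : M.1 + M.2.1 + M.2.2 = j
  · have e : ∑ x ∈ cb N M, p N j x * F x = ((2 : ℝ) ^ N)⁻¹ * ∑ x ∈ cb N M, F x := by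
      rw [mul_sum]
      refine sum_congr rfl fun x hx => ?_
      have hx' : cx N x = M := mem_cb.1 hx
      have e1 : ix N x.1 = M.1 := by rw [← hx']; rfl
      have e2 : ix N x.2.1 = M.2.1 := by rw [← hx']; rfl
      have e3 : ix N x.2.2 = M.2.2 := by rw [← hx']; rfl
      unfold p
      rw [e1, e2, e3, if_pos h]
    rw [e]
  · have e : ∑ x ∈ cb N M, p N j x * F x = 0 := by
      refine sum_eq_zero fun x hx => ?_
      have hx' : cx N x = M := mem_cb.1 hx
      have e1 : ix N x.1 = M.1 := by rw [← hx']; rfl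
      have e2 : ix N x.2.1 = M.2.1 := by rw [← hx']; rfl
      have e3 : ix N x.2.2 = M.2.2 := by rw [← hx']; rfl
      unfold p
      rw [e1, e2, e3, if_neg h, zero_mul]
    rw [e, abs_zero]
    exact abs_nonneg _

theorem In_top (N : ℕ) (M : Pt) (j : ℤ) (F : Pt → ℝ) :
    |In N M (D N j) F| + |In N M (D2 N j) F| ≤ 6 * top N M F := by
  have a0 := In_p_top N M j F
  have a1 := In_p_top N M (j - 1) F
  have a2 := In_p_top N M (j - 2) F
  have e1 : In N M (D N j) F = In N M (p N j) F + -1 * In N M (p N (j - 1)) F := by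
    unfold In
    simp only [mul_sum, ← sum_add_distrib]
    refine sum_congr rfl fun x _ => ?_
    unfold D; ring
  have e2 : In N M (D2 N j) F =
      In N M (p N j) F + -2 * In N M (p N (j - 1)) F + 1 * In N M (p N (j - 2)) F := by
    unfold In
    simp only [mul_sum, ← sum_add_distrib]
    refine sum_congr rfl fun x _ => ?_
    unfold D2; ring
  rw [abs_le] at a0 a1 a2
  have b1 : |In N M (D N j) F| ≤ 2 * top N M F := by
    rw [e1, abs_le]; constructor <;> linarith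
  have b2 : |In N M (D2 N j) F| ≤ 4 * top N M F := by
    rw [e2, abs_le]; constructor <;> linarith
  linarith

/-- **Differences of planes as sums of three-gap node forms**, weights `2 ^ (-r)`. -/
theorem D_le {N : ℕ} (M : Pt) {c : ℕ → ℤ} (hc : Pl c) (F : Pt → ℝ) (R : ℕ) :
    ∀ k, k + R = N → ∀ j, c k ≤ j ∧ j ≤ c k + 2 →
    |In N M (D k j) F| + |In N M (D2 k j) F| ≤
      13 * ∑ r ∈ range R, (1 / 2 : ℝ) ^ r * TN N M (k + 1 + r) (c (k + 1 + r)) F
        + 6 * (1 / 2 : ℝ) ^ R * top N M F := by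
  induction R with
  | zero =>
    intro k hk j _
    obtain rfl : k = N := by omega
    have := In_top k M j F
    simpa using this
  | succ R ih =>
    intro k hk j hj
    have h1 := w_step (by omega : k + 1 ≤ N) M hc hj F
    have h2 := ih (k + 1) (by omega) (j / 2) (win hc hj)
    rw [sum_range_succ']
    have e : ∑ r ∈ range R, (1 / 2 : ℝ) ^ (r + 1) *
        TN N M (k + 1 + (r + 1)) (c (k + 1 + (r + 1))) F =
        1 / 2 * ∑ r ∈ range R, (1 / 2 : ℝ) ^ r * TN N M (k + 1 + 1 + r) (c (k + 1 + 1 + r)) F := by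
      rw [mul_sum]
      refine sum_congr rfl fun r _ => ?_
      have : k + 1 + (r + 1) = k + 1 + 1 + r := by ring
      rw [this, pow_succ]
      ring
    rw [e, pow_zero, one_mul, Nat.add_zero, pow_succ]
    linarith

end

end Vale.Agent.P141.H352
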