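import Vale.Agent.P141.H352.NFd
import Vale.Agent.P141.H275.GrSum

/-!
# P141, line (A), near term: `H275.kT` is `KQ`
-/

namespace Vale.Agent.P141.H352

open Finset Matrix
open Vale.Agent.P141.PL (Pt iv ix mem_iv cx)
open Vale.Agent.P141.H588G (sum_iv_iv)
open Vale.Agent.P141.H103 (un)
open Vale.Agent.P141.H677.Sk (FDs FamA FamV)
open Vale.Agent.P141.H401 (qA qB)

noncomputable section

open scoped Classical

variable {κ : Type*} [Fintype κ]

theorem kM_eq {N t : ℕ} (ht : t ≤ N) (R S : ℤ) (Q : ℤ → ℤ → Prop) (f : ℤ → ℤ → κ → ℝ) :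
    H275.kM N R S t Q f = kq N R S t Q f := by
  unfold H275.kM kq ms
  have e1 := fun F : ℤ → ℝ => sum_iv_iv t (N - t) R F
  simp only [show N - t + t = N by omega] at e1
  rw [sum_comm, ← e1]
  refine sum_congr rfl fun n _ => ?_
  rw [sum_comm]
  refine sum_congr rfl fun m _ => ?_
  have e2 : ∀ x ∈ iv t n, (if Q (ix t x) m then ∑ y ∈ iv t m, ∑ i, f x y i ^ 2 else 0) =
      if Q n m then ∑ y ∈ iv t m, f x y ⬝ᵥ f x y else 0 := by
    intro x hx
    rw [(mem_iv).1 hx]
    split_ifs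
    · refine sum_congr rfl fun y _ => ?_
      unfold dotProduct
      exact sum_congr rfl fun i _ => by rw [pow_two]
    · rfl
  rw [sum_congr rfl e2]
  split_ifs <;> simp

theorem kT_eq (N : ℕ) (R S : ℤ) (Q : ℕ → ℤ → ℤ → Prop) (b : ℕ → ℤ → ℤ → κ → ℝ) :
    H275.kT N R S Q b = KQ N R S Q b := by
  unfold H275.kT KQ
  exact sum_congr rfl fun t ht => kM_eq (mem_range.1 ht).le R S (Q t) (b (t + 1))

end

end Vale.Agent.P141.H352
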