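import Vale.Agent.P141.H352.NbMass
import Vale.Agent.P141.H677.FDb

/-!
# P141, line (A), near term: the hypotheses of the numbers from the bundle of the flow part

From `H677.Sk.FDs`: `fd_capA`, `fd_capb` : `CapR`; `fd_agA`, `fd_agb` : `Ag`; `fd_pmA`, `fd_pmb` :
`Pm`; `fd_pkA`, `fd_pkb` : packing `pk3 ≤ (cP + 2) 8 ^ K`; `fd_N1` : the neighbour numbers of the
cut families summed over `x0`.
-/

namespace Vale.Agent.P141.H352

open Finset Matrix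
open Vale.Agent.P141.PL (Pt iv hs ix mem_iv ix_ix cb mem_cb cx)
open Vale.Agent.P141.PL.H315 (Tri)
open Vale.Agent.P141.H48 (US ES BSl sst)
open Vale.Agent.P141.H205 (CapS)
open Vale.Agent.P141.H103 (PA QW un)
open Vale.Agent.P141.H576 (QD Dd Dd_sst QD_pack)
open Vale.Agent.P141.H588G (sum_iv_iv card_iv')
open Vale.Agent.P141.H677.Sk (FDs FamA FamV)
open Vale.Agent.P141.H401 (qA qB)

noncomputable section

open scoped Classical

/-! ### Packing with `x0` -/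

theorem pk3_le {N : ℕ} {X R S : ℤ} {Q : ℕ → ℤ → ℤ → ℤ → Prop} {c : ℝ}
    (h : ∀ x0 ∈ iv N X, ∑ t ∈ range N, ∑ n ∈ iv (N - t) R, ∑ m ∈ iv (N - t) S,
      (if Q t (ix t x0) n m then (4 : ℝ) ^ t else 0) ≤ c * 4 ^ N) :
    pk3 N X R S Q ≤ c * 8 ^ N := by
  have e : pk3 N X R S Q = ∑ x0 ∈ iv N X, ∑ t ∈ range N, ∑ n ∈ iv (N - t) R,
      ∑ m ∈ iv (N - t) S, (if Q t (ix t x0) n m then (4 : ℝ) ^ t else 0) := by
    unfold pk3
    rw [sum_comm (s := iv N X)]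
    refine sum_congr rfl fun t ht => ?_
    rw [mem_range] at ht
    have e1 := fun F : ℤ → ℝ => sum_iv_iv t (N - t) X F
    simp only [show N - t + t = N by omega] at e1
    rw [← e1]
    refine sum_congr rfl fun i _ => ?_
    have e2 : ∀ x0 ∈ iv t i, (∑ n ∈ iv (N - t) R, ∑ m ∈ iv (N - t) S,
        (if Q t (ix t x0) n m then (4 : ℝ) ^ t else 0)) = ∑ n ∈ iv (N - t) R,
        ∑ m ∈ iv (N - t) S, (if Q t i n m then (4 : ℝ) ^ t else 0) := by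
      intro x0 hx0
      rw [(mem_iv).1 hx0]
    rw [sum_congr rfl e2, sum_const, nsmul_eq_mul, card_iv', mul_sum]
    refine sum_congr rfl fun n _ => ?_
    rw [mul_sum]
    refine sum_congr rfl fun m _ => ?_
    split_ifs
    · rw [← mul_pow]
      norm_num
    · rw [mul_zero]
  rw [e]
  refine (sum_le_sum h).trans (le_of_eq ?_)
  rw [sum_const, nsmul_eq_mul, card_iv', show (8 : ℝ) = 2 * 4 by norm_num, mul_pow]
  ring

theorem pk3_QD {D : ℕ → ℤ → ℤ → Prop} (hD : Dd D) {n K : ℕ} {e cP : ℝ} {F : ℕ → Pt → ℝ}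
    {Q : ℕ → Pt → Prop} (hB : BSl n e cP F Q) (hK : K ≤ n) (X R S : ℤ) :
    pk3 K X R S (fun t i a b => QD D Q t i a b) ≤ (cP + 2) * 8 ^ K := by
  refine pk3_le fun x0 _ => le_trans ?_ (QD_pack hD hB x0 hK R S)
  rw [sum_range_succ]
  refine le_add_of_nonneg_right (sum_nonneg fun _ _ => sum_nonneg fun _ _ => ?_)
  split_ifs
  · positivity
  · exact le_rfl

theorem pk3_QD' {D : ℕ → ℤ → ℤ → Prop} (hD : Dd D) {n K : ℕ} {e cP : ℝ} {F : ℕ → Pt → ℝ}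
    {Q : ℕ → Pt → Prop} (hB : BSl n e cP F Q) (hK : K ≤ n) (X R S : ℤ) :
    pk3 K X R S (fun t i a b => QD D Q t i b a) ≤ (cP + 2) * 8 ^ K := by
  refine pk3_le fun x0 _ => le_trans ?_ (QD_pack hD hB x0 hK S R)
  rw [sum_range_succ]
  have e : ∀ t, ∑ n ∈ iv (K - t) R, ∑ m ∈ iv (K - t) S,
      (if QD D Q t (ix t x0) m n then (4 : ℝ) ^ t else 0) = ∑ m ∈ iv (K - t) S,
      ∑ n ∈ iv (K - t) R, (if QD D Q t (ix t x0) m n then (4 : ℝ) ^ t else 0) :=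
    fun t => sum_comm
  simp only [e]
  refine le_add_of_nonneg_right (sum_nonneg fun _ _ => sum_nonneg fun _ _ => ?_)
  split_ifs
  · positivity
  · exact le_rfl

/-! ### The bundle -/

variable {ι : Type} [Fintype ι] [DecidableEq ι] {q : H401.Num} {n : ℕ} {ez : ℝ}
  {F1 F2 F3 : ℕ → Pt → ℝ} {K : ℕ} {x : Pt} {s r : ℝ} {U : Tri} {g : ℤ → ℤ → ℝ}
  {u v : ℤ → ℤ → ι → ℝ} {A : FamA} {b C : FamV ι} {Q1 Q2 Q3 : ℕ → Pt → Prop}
  {v' : ℤ → ℤ → ι → ℝ}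

theorem ms_un (t l : ℕ) (f : ℤ → ℤ → ℝ) (n m : ℤ) :
    ms t l (un f) n m = ∑ z ∈ iv t n, ∑ y ∈ iv l m, f z y ^ 2 := by
  unfold ms
  refine sum_congr rfl fun z _ => sum_congr rfl fun y _ => ?_
  simp [H103.un, dotProduct, pow_two]

theorem fd_capA (h : FDs q n ez F1 F2 F3 K x s r U g u v A b C Q1 Q2 Q3 v') (R S x0 : ℤ) :
    CapR K R S (q.th s r ^ 2) fun t => un (A x0 t) :=
  capR_of fun k hk n' _ m' _ => h.capA x0 k hk n' m'

theorem fd_capb (h : FDs q n ez F1 F2 F3 K x s r U g u v A b C Q1 Q2 Q3 v') (R S x0 : ℤ) :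
    CapR K R S (q.th s r ^ 2) (b x0) :=
  capR_of fun k hk n' _ m' _ => h.capb x0 k hk n' m'

theorem fd_agA (h : FDs q n ez F1 F2 F3 K x s r U g u v A b C Q1 Q2 Q3 v') (R S x0 : ℤ) :
    Ag K R S (fun t i j => qA q U K Q1 t (ix t x0) i j) fun t => un (A x0 t) where
  z0 z y := by
    funext i
    exact h.z0A x0 z y
  ag t ht z _ y _ hq := by
    funext i
    exact h.agA x0 t ht _ _ hq z ((mem_iv).2 rfl) y ((mem_iv).2 rfl)

theorem fd_agb (h : FDs q n ez F1 F2 F3 K x s r U g u v A b C Q1 Q2 Q3 v') (R S x0 : ℤ) :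
    Ag K R S (fun t i j => qB q U K Q3 t (ix t x0) i j) (b x0) where
  z0 z y := h.z0b x0 z y
  ag t ht z _ y _ hq := h.agb x0 t ht _ _ hq z ((mem_iv).2 rfl) y ((mem_iv).2 rfl)

theorem fd_pmA (h : FDs q n ez F1 F2 F3 K x s r U g u v A b C Q1 Q2 Q3 v') (X : ℤ) :
    Pm K X (cx K x).2.2 (cx K x).2.1 (q.CD * (q.Lm * s)) (qA q U K Q1)
      fun x0 t => un (A x0 t) where
  ag t ht x0 _ z _ y _ hq := by
    funext i
    exact h.agA x0 t ht _ _ hq z ((mem_iv).2 rfl) y ((mem_iv).2 rfl)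
  m0 t ht i _ n' hn m' hm := by
    simp only [ms_un]
    exact h.massA t ht.le t (Or.inl rfl) i n' hn m' hm
  m1 t ht i _ n' hn m' hm := by
    simp only [ms_un]
    exact h.massA t ht.le (t + 1) (Or.inr ⟨rfl, ht⟩) i n' hn m' hm

theorem fd_pmb (h : FDs q n ez F1 F2 F3 K x s r U g u v A b C Q1 Q2 Q3 v') (X : ℤ) :
    Pm K X (cx K x).1 (cx K x).2.1 (q.CD * (q.Lm * s)) (qB q U K Q3) b where
  ag t ht x0 _ z _ y _ hq := h.agb x0 t ht _ _ hq z ((mem_iv).2 rfl) y ((mem_iv).2 rfl)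
  m0 t ht i _ n' hn m' hm := h.massb t ht.le t (Or.inl rfl) i n' hn m' hm
  m1 t ht i _ n' hn m' hm := h.massb t ht.le (t + 1) (Or.inr ⟨rfl, ht⟩) i n' hn m' hm

theorem fd_pkA (h : FDs q n ez F1 F2 F3 K x s r U g u v A b C Q1 Q2 Q3 v') (hK : K ≤ n)
    (X R S : ℤ) : pk3 K X R S (qA q U K Q1) ≤ (q.cP + 2) * 8 ^ K :=
  pk3_QD' (Dd_sst q.Lm U.2.2 K) h.B1 hK X R S

theorem fd_pkb (h : FDs q n ez F1 F2 F3 K x s r U g u v A b C Q1 Q2 Q3 v') (hK : K ≤ n)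
    (X R S : ℤ) : pk3 K X R S (qB q U K Q3) ≤ (q.cP + 2) * 8 ^ K :=
  pk3_QD (Dd_sst q.Lm U.1 K) h.B3 hK X R S

/-- **The neighbour numbers of the cut families**, one root cell of `x0`. -/
theorem fd_N1 (h : FDs q n ez F1 F2 F3 K x s r U g u v A b C Q1 Q2 Q3 v') (hK : K ≤ n)
    (hm : 0 ≤ q.CD * (q.Lm * s)) (D : ℕ) (X : ℤ) :
    ∑ x0 ∈ iv K X, N1 D K (cx K x).2.2 (cx K x).2.1 (cx K x).1 (q.th s r ^ 2) (q.th s r ^ 2)
        (fun t i j => qA q U K Q1 t (ix t x0) i j) (fun t i j => qB q U K Q3 t (ix t x0) i j)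
        (A x0) (b x0) ≤
      (22016 * D + 27840 + 806976 * (4 * D + 5)) * (2 * q.th s r ^ 2) *
        (2 * (q.CD * (q.Lm * s)) * ((q.cP + 2) * 8 ^ K)) := by
  have h1 := sum_N1 (D := D) (sq_nonneg (q.th s r)) (sq_nonneg (q.th s r)) hm hm
    (fd_pmA h X) (fd_pmb h X)
  refine h1.trans ?_
  have a1 := mul_le_mul_of_nonneg_left (fd_pkA h hK X (cx K x).2.2 (cx K x).2.1) hm
  have a2 := mul_le_mul_of_nonneg_left (fd_pkb h hK X (cx K x).1 (cx K x).2.1) hm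
  have hD0 : (0 : ℝ) ≤ D := Nat.cast_nonneg D
  rw [← two_mul]
  refine mul_le_mul_of_nonneg_left ?_ (by positivity)
  linarith

/-- the mass numbers of the cut families, one root cell of `x0` -/
theorem fd_KQA (h : FDs q n ez F1 F2 F3 K x s r U g u v A b C Q1 Q2 Q3 v') (hK : K ≤ n)
    (hm : 0 ≤ q.CD * (q.Lm * s)) (X : ℤ) :
    ∑ x0 ∈ iv K X, KQ K (cx K x).2.2 (cx K x).2.1
        (fun t i j => qA q U K Q1 t (ix t x0) i j) (fun t => un (A x0 t)) ≤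
      q.CD * (q.Lm * s) * ((q.cP + 2) * 8 ^ K) :=
  (sum_KQ (fd_pmA h X)).trans (mul_le_mul_of_nonneg_left (fd_pkA h hK X _ _) hm)

theorem fd_KQb (h : FDs q n ez F1 F2 F3 K x s r U g u v A b C Q1 Q2 Q3 v') (hK : K ≤ n)
    (hm : 0 ≤ q.CD * (q.Lm * s)) (X : ℤ) :
    ∑ x0 ∈ iv K X, KQ K (cx K x).1 (cx K x).2.1
        (fun t i j => qB q U K Q3 t (ix t x0) i j) (b x0) ≤
      q.CD * (q.Lm * s) * ((q.cP + 2) * 8 ^ K) :=
  (sum_KQ (fd_pmb h X)).trans (mul_le_mul_of_nonneg_left (fd_pkb h hK X _ _) hm)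

end

end Vale.Agent.P141.H352
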