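import Vale.Agent.P141.H352.ZkM
import Vale.Agent.P141.H708.PNum

/-!
# P141, line (A), near term: the neighbour number in mass form, at one `x0` and summed over `x0`

* `kq` : mass of time `t + 1` on the affected squares; `mass_path` : the mass at every time is at
  most the sum of the numbers `kq`; `sum_kq` : summed over `x0`;
* `capR_of` : caps on the squares of the own scale give `CapR`;
* `N1` : the number of one point `x0`; `nb_x0` : the neighbour sum is at most `N1`;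
* `sum_N1` : summed over `x0`.
-/

namespace Vale.Agent.P141.H352

open Finset Matrix Vale.Agent.P141.PL Vale.Agent.P141.PL.H103 Vale.Agent.P141.H103
open Vale.Agent.P141.H588G Vale.Agent.P141.H708
open Vale.Agent.P075 (Ix val)
open Vale.Agent.P141.H205 (CapS)
open Vale.Agent.P141.H922.NB (QU Chg Wd Phi sqv)

noncomputable section

open scoped Classical

variable {κ κ' : Type*} [Fintype κ] [Fintype κ']

/-! ### Masses -/

/-- the mass on the affected squares of scale `t` -/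
def kq (N : ℕ) (R S : ℤ) (t : ℕ) (Q : ℤ → ℤ → Prop) (f : ℤ → ℤ → κ → ℝ) : ℝ :=
  ∑ n ∈ iv (N - t) R, ∑ m ∈ iv (N - t) S, if Q n m then ms t t f n m else 0

theorem kq_nonneg (N : ℕ) (R S : ℤ) (t : ℕ) (Q : ℤ → ℤ → Prop) (f : ℤ → ℤ → κ → ℝ) :
    0 ≤ kq N R S t Q f :=
  sum_nonneg fun _ _ => sum_nonneg fun _ _ => by
    split_ifs
    · exact ms_nonneg ..
    · exact le_rfl

theorem ms_root {N t : ℕ} (ht : t ≤ N) (R S : ℤ) (f : ℤ → ℤ → κ → ℝ) :
    ms N N f R S = ∑ n ∈ iv (N - t) R, ∑ m ∈ iv (N - t) S, ms t t f n m := by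
  unfold ms
  have e1 := fun F : ℤ → ℝ => sum_iv_iv t (N - t) R F
  have e2 := fun F : ℤ → ℝ => sum_iv_iv t (N - t) S F
  simp only [show N - t + t = N by omega] at e1 e2
  rw [← e1]
  refine sum_congr rfl fun n _ => ?_
  rw [sum_comm (s := iv (N - t) S)]
  exact sum_congr rfl fun x _ => (e2 _).symm

/-- data of a family at one `x0` -/
structure Ag (N : ℕ) (R S : ℤ) (Q : ℕ → ℤ → ℤ → Prop) (f : ℕ → ℤ → ℤ → κ → ℝ) : Prop where
  z0 : ∀ x y, f 0 x y = 0
  ag : ∀ t < N, ∀ x ∈ iv N R, ∀ y ∈ iv N S, ¬ Q t (ix t x) (ix t y) → f (t + 1) x y = f t x y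

/-- **The mass at every time.** -/
theorem mass_path {N : ℕ} {R S : ℤ} {Q : ℕ → ℤ → ℤ → Prop} {f : ℕ → ℤ → ℤ → κ → ℝ}
    (h : Ag N R S Q f) {k : ℕ} (hk : k ≤ N) :
    ms N N (f k) R S ≤ ∑ t ∈ range k, kq N R S t (Q t) (f (t + 1)) := by
  induction k with
  | zero =>
    rw [range_zero, sum_empty]
    unfold ms
    refine le_of_eq (sum_eq_zero fun x _ => sum_eq_zero fun y _ => ?_)
    rw [h.z0, dotProduct_zero]
  | succ k ih =>
    rw [sum_range_succ]
    refine le_trans ?_ (add_le_add (ih (by omega)) le_rfl)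
    rw [ms_root (by omega : k ≤ N), ms_root (by omega : k ≤ N)]
    unfold kq
    rw [← sum_add_distrib]
    refine sum_le_sum fun n hn => ?_
    rw [← sum_add_distrib]
    refine sum_le_sum fun m hm => ?_
    split_ifs with hq
    · have := ms_nonneg k k (f k) n m
      linarith
    · rw [add_zero]
      refine le_of_eq ?_
      unfold ms
      refine sum_congr rfl fun x hx => sum_congr rfl fun y hy => ?_
      have hx' : ix k x = n := (mem_iv).1 hx
      have hy' : ix k y = m := (mem_iv).1 hy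
      rw [h.ag k (by omega) x (pt_mem (by omega) hn hx) y (pt_mem (by omega) hm hy)
        (by rwa [hx', hy'])]

/-- all the mass numbers -/
def KQ (N : ℕ) (R S : ℤ) (Q : ℕ → ℤ → ℤ → Prop) (f : ℕ → ℤ → ℤ → κ → ℝ) : ℝ :=
  ∑ t ∈ range N, kq N R S t (Q t) (f (t + 1))

theorem KQ_nonneg (N : ℕ) (R S : ℤ) (Q : ℕ → ℤ → ℤ → Prop) (f : ℕ → ℤ → ℤ → κ → ℝ) :
    0 ≤ KQ N R S Q f := sum_nonneg fun _ _ => kq_nonneg ..

theorem mass_KQ {N : ℕ} {R S : ℤ} {Q : ℕ → ℤ → ℤ → Prop} {f : ℕ → ℤ → ℤ → κ → ℝ}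
    (h : Ag N R S Q f) {k : ℕ} (hk : k ≤ N) : ms N N (f k) R S ≤ KQ N R S Q f := by
  refine (mass_path h hk).trans ?_
  unfold KQ
  exact sum_le_sum_of_subset_of_nonneg (range_subset_range.2 hk) fun _ _ _ => kq_nonneg ..

/-- **The masses summed over `x0`.** -/
theorem sum_KQ {N : ℕ} {X R S : ℤ} {mu : ℝ} {Q : ℕ → ℤ → ℤ → ℤ → Prop}
    {f : ℤ → ℕ → ℤ → ℤ → κ → ℝ} (h : Pm N X R S mu Q f) :
    ∑ x0 ∈ iv N X, KQ N R S (fun t n m => Q t (ix t x0) n m) (f x0) ≤ mu * pk3 N X R S Q := by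
  unfold KQ pk3
  rw [sum_comm, mul_sum]
  refine sum_le_sum fun t ht => ?_
  rw [mem_range] at ht
  have e1 := fun F : ℤ → ℝ => sum_iv_iv t (N - t) X F
  simp only [show N - t + t = N by omega] at e1
  rw [← e1, mul_sum]
  refine sum_le_sum fun i hi => ?_
  unfold kq
  rw [sum_comm, mul_sum]
  refine sum_le_sum fun n hn => ?_
  rw [sum_comm, mul_sum]
  refine sum_le_sum fun m hm => ?_
  have e2 : ∀ x0 ∈ iv t i, (if Q t (ix t x0) n m then ms t t (f x0 (t + 1)) n m else 0) =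
      if Q t i n m then ms t t (f x0 (t + 1)) n m else 0 := by
    intro x0 hx0
    rw [(mem_iv).1 hx0]
  rw [sum_congr rfl e2]
  split_ifs
  · exact h.m1 t ht i hi n hn m hm
  · simp

/-! ### Caps -/

variable [DecidableEq κ] [DecidableEq κ']

theorem capR_of {N : ℕ} {R S : ℤ} {τ : ℝ} {b : ℕ → ℤ → ℤ → κ → ℝ}
    (h : ∀ k ≤ N, ∀ n ∈ iv (N - k) R, ∀ m ∈ iv (N - k) S, CapS τ k k (b k) n m) :
    CapR N R S τ b := fun t a l _ ha hl haN hlN m hm n hn =>
  capS_psd (capS_coarse (h t (by omega)) l a hl ha hlN haN n hn m hm)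

/-- own energies are at most cap times mass -/
theorem EW_ms {N l a : ℕ} {R S : ℤ} (haN : a ≤ N) (hlN : l ≤ N) {f : ℤ → ℤ → κ → ℝ} {τ : ℝ}
    (τ0 : 0 ≤ τ) (cap : ∀ m ∈ iv (N - l) S, ∀ n ∈ iv (N - a) R,
      (τ • (1 : Matrix _ _ ℝ) - QW a l f (fun _ => 1) n m).PosSemidef) :
    EW N R S l (fun a n m => QW a l f (fun _ => 1) n m) a ≤ 2 * τ * ms N N f R S := by
  have h := EW_zk (t := 0) (R := R) (S := S) (Nat.zero_le a) haN (f := fun _ _ => 0) (f' := f) τ0
    cap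
  have e0 : EW N R S l (fun a n m => QW a l (fun _ _ => (0 : κ → ℝ)) (fun _ => 1) n m) a = 0 := by
    unfold EW
    have e : ∀ n m, QW a l (fun _ _ => (0 : κ → ℝ)) (fun _ => 1) n m = 0 := by
      intro n m
      ext j j'
      unfold QW
      simp
    simp [e]
  rw [e0, zero_add] at h
  refine h.trans (le_of_eq ?_)
  congr 1
  unfold zk zn
  have e1 : ∀ n m, √(ms 0 l (fun x y => f x y - 0) n m) * √(ms 0 l (fun x y => f x y + 0) n m) =
      ms 0 l f n m := by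
    intro n m
    simp only [sub_zero, add_zero]
    exact Real.mul_self_sqrt (ms_nonneg ..)
  simp only [e1]
  unfold ms
  have e2 := fun F : ℤ → ℝ => sum_iv_iv 0 (N - 0) R F
  simp only [show N - 0 + 0 = N by omega] at e2
  have e3 := fun F : ℤ → ℝ => sum_iv_iv l (N - l) S F
  simp only [show N - l + l = N by omega] at e3
  simp only [e2]
  rw [sum_comm]
  exact sum_congr rfl fun x _ => e3 _

/-! ### The neighbour sum -/

/-- **The number of one point.** -/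
def N1 (D N : ℕ) (R S T : ℤ) (τA τb : ℝ) (QA Qb : ℕ → ℤ → ℤ → Prop) (A : ℕ → ℤ → ℤ → ℝ)
    (b : ℕ → ℤ → ℤ → κ → ℝ) : ℝ :=
  (11008 * D + 13920) * (2 * τA * KQ N R S QA (fun t => un (A t)) + 2 * τb * KQ N T S Qb b) +
    432 * (4 * D + 5) * (τA + τb) * ∑ i ∈ range (N - 1), (2 / 3) ^ i * (i + 2) *
      ∑ t ∈ Ico 1 (N - (i + 1)), (zk N R S t (t + (i + 1)) (un (A t)) (un (A (t + 1))) +
        zk N T S t (t + (i + 1)) (b t) (b (t + 1)))

theorem nb_x0 {N D : ℕ} (hN : 1 ≤ N) {R S T : ℤ} {c : ℕ → ℤ} (hc : H652.PlD D c) {τA τb : ℝ}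
    (A0 : 0 ≤ τA) (b0 : 0 ≤ τb) {QA Qb : ℕ → ℤ → ℤ → Prop} {A : ℕ → ℤ → ℤ → ℝ}
    {b : ℕ → ℤ → ℤ → κ → ℝ} (hA : Ag N R S QA fun t => un (A t)) (hb : Ag N T S Qb b)
    (cA : CapR N R S τA fun t => un (A t)) (cb : CapR N T S τb b) :
    ∑ K ∈ Icc 1 N, ∑ m ∈ Wd N K S, Phi N R T K (c K) m
        (fun z x => sqv (H352.nd (H922.NB.Vz N S (A K) (b K) z x) K m)) ≤
      N1 D N R S T τA τb QA Qb A b := by
  unfold N1
  refine nb_zk (zA := fun t l => zk N R S t l (un (A t)) (un (A (t + 1))))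
    (zB := fun t l => zk N T S t l (b t) (b (t + 1))) A0 b0 (fun t l => zk_nonneg ..)
    (fun t l => zk_nonneg ..) hc ?_ ?_ ?_ ?_ ?_
  · intro t l a ht hl hlN ha haN
    rw [PA_QW, PA_QW]
    exact EW_zk (by omega) haN A0 fun m hm n hn =>
      cA (t + 1) a l (by omega) ha (by omega) haN (by omega) m hm n hn
  · intro t l a ht hl hlN ha haN
    rw [QU_QW, QU_QW]
    exact EW_zk (by omega) haN b0 fun m hm n hn =>
      cb (t + 1) a l (by omega) ha (by omega) haN (by omega) m hm n hn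
  · intro t l c' ht hl hlN
    rw [PA_QW, PA_QW, QU_QW, QU_QW]
    exact MW_zk (by omega) (by omega) A0 b0
      (fun m hm n hn => cA t l l ht (by omega) (by omega) (by omega) (by omega) m hm n hn)
      (fun m hm n hn => cb (t + 1) l l (by omega) (by omega) (by omega) (by omega)
        (by omega) m hm n hn) _
  · rw [PA_QW, QU_QW]
    refine add_le_add ?_ ?_
    · refine (EW_ms hN hN A0 fun m hm n hn =>
        cA 1 1 1 le_rfl le_rfl le_rfl hN hN m hm n hn).trans ?_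
      exact mul_le_mul_of_nonneg_left (mass_KQ hA hN) (by positivity)
    · refine (EW_ms hN hN b0 fun m hm n hn =>
        cb 1 1 1 le_rfl le_rfl le_rfl hN hN m hm n hn).trans ?_
      exact mul_le_mul_of_nonneg_left (mass_KQ hb hN) (by positivity)
  · intro k hk1 hk
    rw [PA_QW, QU_QW]
    refine add_le_add ?_ ?_
    · refine (EW_ms hk le_rfl A0 fun m hm n hn =>
        cA k k N hk1 le_rfl hk hk le_rfl m hm n hn).trans ?_
      exact mul_le_mul_of_nonneg_left (mass_KQ hA hk) (by positivity)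
    · refine (EW_ms hk le_rfl b0 fun m hm n hn =>
        cb k k N hk1 le_rfl hk hk le_rfl m hm n hn).trans ?_
      exact mul_le_mul_of_nonneg_left (mass_KQ hb hk) (by positivity)

theorem geo_zk (n : ℕ) : ∑ i ∈ range n, (2 / 3 : ℝ) ^ i * (i + 2) * √2 ^ (i + 1) ≤ 467 := by
  have h2 : √2 ≤ 14143 / 10000 := by
    rw [Real.sqrt_le_left (by norm_num)]
    norm_num
  have h0 := Real.sqrt_nonneg (2 : ℝ)
  have h1 : ∀ i ∈ range n, (2 / 3 : ℝ) ^ i * (i + 2) * √2 ^ (i + 1) ≤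
      14143 / 10000 * ((943 / 1000) ^ i * (i + 2)) := by
    intro i _
    have e : (2 / 3 : ℝ) ^ i * (i + 2) * √2 ^ (i + 1) = √2 * ((2 / 3 * √2) ^ i * (i + 2)) := by
      rw [mul_pow, pow_succ]
      ring
    rw [e]
    have h3 : (2 / 3 * √2) ^ i ≤ (943 / 1000 : ℝ) ^ i := by
      refine pow_le_pow_left₀ (by positivity) ?_ i
      have : √2 ≤ 14145 / 10000 * 1 := by linarith
      linarith
    have h4 : (0 : ℝ) ≤ (i : ℝ) + 2 := by positivity
    exact mul_le_mul h2 (mul_le_mul_of_nonneg_right h3 h4) (by positivity) (by norm_num)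
  refine (sum_le_sum h1).trans ?_
  rw [← mul_sum]
  have := geo943 n
  linarith

/-- **The neighbour numbers summed over `x0`.** -/
theorem sum_N1 {N D : ℕ} {X R S T : ℤ} {τA τb mA mb : ℝ} (A0 : 0 ≤ τA) (b0 : 0 ≤ τb)
    (hmA : 0 ≤ mA) (hmb : 0 ≤ mb) {QA Qb : ℕ → ℤ → ℤ → ℤ → Prop} {A : ℤ → ℕ → ℤ → ℤ → ℝ}
    {b : ℤ → ℕ → ℤ → ℤ → κ → ℝ} (hA : Pm N X R S mA QA fun x0 t => un (A x0 t))
    (hb : Pm N X T S mb Qb b) :
    ∑ x0 ∈ iv N X, N1 D N R S T τA τb (fun t n m => QA t (ix t x0) n m)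
        (fun t n m => Qb t (ix t x0) n m) (A x0) (b x0) ≤
      (22016 * D + 27840 + 806976 * (4 * D + 5)) * (τA + τb) *
        (mA * pk3 N X R S QA + mb * pk3 N X T S Qb) := by
  set PA' := mA * pk3 N X R S QA with hPA
  set PB' := mb * pk3 N X T S Qb with hPB
  have kA := sum_KQ hA
  have kb := sum_KQ hb
  rw [← hPA] at kA
  rw [← hPB] at kb
  have PA0 : 0 ≤ PA' := (sum_nonneg fun x0 _ => KQ_nonneg ..).trans kA
  have PB0 : 0 ≤ PB' := (sum_nonneg fun x0 _ => KQ_nonneg ..).trans kb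
  unfold N1
  rw [sum_add_distrib, ← mul_sum, ← mul_sum, sum_add_distrib, ← mul_sum, ← mul_sum, sum_comm]
  have hD0 : (0 : ℝ) ≤ D := Nat.cast_nonneg D
  -- the changes
  have z1 : ∑ i ∈ range (N - 1), ∑ x0 ∈ iv N X, (2 / 3 : ℝ) ^ i * (i + 2) *
      ∑ t ∈ Ico 1 (N - (i + 1)), (zk N R S t (t + (i + 1)) (un (A x0 t)) (un (A x0 (t + 1))) +
        zk N T S t (t + (i + 1)) (b x0 t) (b x0 (t + 1))) ≤
      ∑ i ∈ range (N - 1), ((2 / 3 : ℝ) ^ i * (i + 2) * √2 ^ (i + 1)) * (4 * (PA' + PB')) := by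
    refine sum_le_sum fun i _ => ?_
    rw [← mul_sum, mul_assoc ((2 / 3 : ℝ) ^ i * (i + 2))]
    refine mul_le_mul_of_nonneg_left ?_ (by positivity)
    simp only [sum_add_distrib]
    have s1 := sum_zk (j := i + 1) hA hmA
    have s2 := sum_zk (j := i + 1) hb hmb
    refine (add_le_add s1 s2).trans (le_of_eq ?_)
    rw [hPA, hPB]
    ring
  rw [← sum_mul] at z1
  have z2 := mul_le_mul_of_nonneg_right (geo_zk (N - 1)) (by positivity : 0 ≤ 4 * (PA' + PB'))
  have z3 := z1.trans z2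
  have z4 := mul_le_mul_of_nonneg_left z3 (by positivity : 0 ≤ 432 * (4 * (D : ℝ) + 5) * (τA + τb))
  have k1 : 2 * τA * ∑ x0 ∈ iv N X, KQ N R S (fun t n m => QA t (ix t x0) n m)
      (fun t => un (A x0 t)) + 2 * τb * ∑ x0 ∈ iv N X, KQ N T S (fun t n m => Qb t (ix t x0) n m)
      (b x0) ≤ 2 * (τA + τb) * (PA' + PB') := by
    have a1 := mul_le_mul_of_nonneg_left kA (by positivity : 0 ≤ 2 * τA)
    have a2 := mul_le_mul_of_nonneg_left kb (by positivity : 0 ≤ 2 * τb)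
    have a3 : 0 ≤ 2 * τA * PB' := by positivity
    have a4 : 0 ≤ 2 * τb * PA' := by positivity
    nlinarith
  have k2 := mul_le_mul_of_nonneg_left k1 (by positivity : 0 ≤ 11008 * (D : ℝ) + 13920)
  refine (add_le_add k2 z4).trans (le_of_eq ?_)
  ring

end

end Vale.Agent.P141.H352
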