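import Vale.Agent.P141.H352.Abel

/-!
# P141, line (A): the near term, pointwise in `(x1, x3)`

A Lipschitz kernel of length `2 ^ K` against the mean over one dyadic cell `m0` of scale `K`:
differences of means of neighbouring cells of scale `K`, and Haar pieces of scale `j ≤ K` with
coefficients `≤ 4 ^ (j - 1) * Λ`.
-/

namespace Vale.Agent.P141.H352

open Finset
open Vale.Agent.P141.PL

noncomputable section

/-- mean over the cell `m` of scale `k` -/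
def mn (k : ℕ) (f : ℤ → ℝ) (m : ℤ) : ℝ := ((2 : ℝ) ^ k)⁻¹ * ∑ x ∈ iv k m, f x

/-- Haar gap of the cell `m` of scale `j` -/
def gh (j : ℕ) (f : ℤ → ℝ) (m : ℤ) : ℝ := ((2 : ℝ) ^ j)⁻¹ * ∑ x ∈ iv j m, hs j x * f x

theorem iv_two (k : ℕ) (m : ℤ) {β : Type*} [AddCommMonoid β] (f : ℤ → β) :
    ∑ x ∈ iv (k + 1) m, f x = ∑ x ∈ iv k (2 * m), f x + ∑ x ∈ iv k (2 * m + 1), f x := by
  classical
  have h2 : (0 : ℤ) < 2 ^ k := by positivity
  have e : iv (k + 1) m = iv k (2 * m) ∪ iv k (2 * m + 1) := by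
    ext x
    rw [mem_union, mem_iv, mem_iv, mem_iv, ← ix_succ]
    omega
  rw [e, sum_union]
  rw [disjoint_left]
  intro x h1 h3
  rw [mem_iv] at h1 h3
  omega

/-- the signs on the two children -/
theorem hs_lo {k : ℕ} {m x : ℤ} (h : x ∈ iv k (2 * m)) : hs (k + 1) x = 1 := by
  rw [mem_iv] at h
  unfold hs
  rw [Nat.add_sub_cancel, h, if_pos (by omega)]

theorem hs_hi {k : ℕ} {m x : ℤ} (h : x ∈ iv k (2 * m + 1)) : hs (k + 1) x = -1 := by
  rw [mem_iv] at h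
  unfold hs
  rw [Nat.add_sub_cancel, h, if_neg (by omega)]

theorem gh_two (k : ℕ) (f : ℤ → ℝ) (m : ℤ) :
    gh (k + 1) f m = (1 / 2) * (mn k f (2 * m) - mn k f (2 * m + 1)) := by
  unfold gh mn
  rw [iv_two]
  have e1 : ∑ x ∈ iv k (2 * m), hs (k + 1) x * f x = ∑ x ∈ iv k (2 * m), f x :=
    sum_congr rfl fun x hx => by rw [hs_lo hx, one_mul]
  have e2 : ∑ x ∈ iv k (2 * m + 1), hs (k + 1) x * f x = -∑ x ∈ iv k (2 * m + 1), f x := by
    rw [← sum_neg_distrib]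
    exact sum_congr rfl fun x hx => by rw [hs_hi hx, neg_one_mul]
  rw [e1, e2, pow_succ, mul_inv]
  ring

theorem mn_two (k : ℕ) (f : ℤ → ℝ) (m : ℤ) :
    mn (k + 1) f m = (1 / 2) * (mn k f (2 * m) + mn k f (2 * m + 1)) := by
  unfold mn
  rw [iv_two, pow_succ, mul_inv]
  ring

/-- **Haar expansion of a product on one cell.** -/
theorem cell_exp (K : ℕ) (g f : ℤ → ℝ) (m : ℤ) :
    ∑ x ∈ iv K m, g x * f x = 2 ^ K * (mn K g m * mn K f m) +
      ∑ j ∈ range K, ∑ i ∈ iv (K - (j + 1)) m, 2 ^ (j + 1) * (gh (j + 1) g i * gh (j + 1) f i) := by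
  induction K generalizing m with
  | zero =>
    have e : iv 0 m = {m} := by
      ext x
      rw [mem_iv, ix_zero, mem_singleton]
    unfold mn
    rw [e]
    simp
  | succ K ih =>
    rw [iv_two, ih, ih, sum_range_succ, Nat.sub_self]
    have e0 : iv 0 m = {m} := by
      ext x
      rw [mem_iv, ix_zero, mem_singleton]
    rw [e0, sum_singleton, mn_two, mn_two, gh_two, gh_two]
    have e1 : ∀ j ∈ range K, ∑ i ∈ iv (K + 1 - (j + 1)) m,
        (2 : ℝ) ^ (j + 1) * (gh (j + 1) g i * gh (j + 1) f i) =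
        ∑ i ∈ iv (K - (j + 1)) (2 * m), 2 ^ (j + 1) * (gh (j + 1) g i * gh (j + 1) f i) +
        ∑ i ∈ iv (K - (j + 1)) (2 * m + 1), 2 ^ (j + 1) * (gh (j + 1) g i * gh (j + 1) f i) := by
      intro j hj
      rw [mem_range] at hj
      rw [show K + 1 - (j + 1) = (K - (j + 1)) + 1 by omega, iv_two]
    rw [sum_congr rfl e1, sum_add_distrib, pow_succ]
    ring

/-- a Lipschitz function on the two children -/
theorem mn_shift {g : ℤ → ℝ} {Λ : ℝ} (hg : ∀ z, |g (z + 1) - g z| ≤ Λ) (k : ℕ) (m : ℤ) :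
    |mn k g (m + 1) - mn k g m| ≤ 2 ^ k * Λ := by
  have h1 : ∀ (n : ℕ) (z : ℤ), |g (z + n) - g z| ≤ n * Λ := by
    intro n
    induction n with
    | zero => intro z; simp
    | succ n ih =>
      intro z
      have h2 := abs_sub_le (g (z + ((n + 1 : ℕ) : ℤ))) (g (z + n)) (g z)
      have h3 := hg (z + n)
      rw [show z + (n : ℤ) + 1 = z + ((n + 1 : ℕ) : ℤ) by push_cast; ring] at h3
      have h4 := ih z
      push_cast at *
      linarith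
  have e : ∑ x ∈ iv k (m + 1), g x = ∑ x ∈ iv k m, g (x + ((2 ^ k : ℕ) : ℤ)) := by
    rw [sum_iv, sum_iv]
    refine sum_congr rfl fun i _ => ?_
    congr 1
    push_cast
    ring
  unfold mn
  rw [e, ← mul_sub, ← sum_sub_distrib, abs_mul, abs_inv, abs_of_pos (by positivity :
    (0 : ℝ) < 2 ^ k)]
  rw [inv_mul_le_iff₀ (by positivity)]
  refine (abs_sum_le_sum_abs _ _).trans ?_
  refine (sum_le_sum fun x _ => h1 (2 ^ k) x).trans (le_of_eq ?_)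
  rw [sum_const, card_iv]
  push_cast
  rw [nsmul_eq_mul]
  push_cast
  ring

theorem gh_lip {g : ℤ → ℝ} {Λ : ℝ} (hg : ∀ z, |g (z + 1) - g z| ≤ Λ) (k : ℕ) (m : ℤ) :
    |gh (k + 1) g m| ≤ (1 / 2) * (2 ^ k * Λ) := by
  rw [gh_two, abs_mul, abs_of_nonneg (by norm_num : (0 : ℝ) ≤ 1 / 2), abs_sub_comm]
  exact mul_le_mul_of_nonneg_left (mn_shift hg k (2 * m)) (by norm_num)

/-! ### The window -/

/-- the cells within distance `D` -/
def wn (D : ℕ) (m0 : ℤ) : Finset ℤ := Icc (m0 - D) (m0 + D)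

theorem card_wn (D : ℕ) (m0 : ℤ) : (wn D m0).card = 2 * D + 1 := by
  unfold wn
  rw [Int.card_Icc]
  have : (m0 + D + 1 - (m0 - D) : ℤ) = ((2 * D + 1 : ℕ) : ℤ) := by push_cast; ring
  rw [this, Int.toNat_natCast]

/-- neighbour differences pay for all differences of the window -/
theorem wn_nd (D : ℕ) (m0 : ℤ) (F : ℤ → ℝ) {m : ℤ} (hm : m ∈ wn D m0) :
    |F m - F m0| ≤ ∑ i ∈ Ico (m0 - D) (m0 + D), |F (i + 1) - F i| := by
  unfold wn at hm
  rw [mem_Icc] at hm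
  have key : ∀ (n : ℕ) (a : ℤ), |F (a + n) - F a| ≤ ∑ i ∈ Ico a (a + n), |F (i + 1) - F i| := by
    intro n
    induction n with
    | zero => intro a; simp
    | succ n ih =>
      intro a
      have e : Ico a (a + ((n + 1 : ℕ) : ℤ)) = insert (a + n) (Ico a (a + n)) := by
        ext x
        rw [mem_insert, mem_Ico, mem_Ico]
        push_cast
        omega
      rw [e, sum_insert (by rw [mem_Ico]; omega)]
      have h2 := abs_sub_le (F (a + ((n + 1 : ℕ) : ℤ))) (F (a + n)) (F a)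
      have h3 := ih a
      rw [show a + ((n + 1 : ℕ) : ℤ) = a + n + 1 by push_cast; ring] at h2 ⊢
      linarith
  rcases le_total m m0 with h | h
  · obtain ⟨n, hn⟩ := Int.eq_ofNat_of_zero_le (sub_nonneg.2 h)
    have h1 := key n m
    rw [show m + (n : ℤ) = m0 by omega] at h1
    rw [abs_sub_comm]
    refine h1.trans (sum_le_sum_of_subset_of_nonneg ?_ fun _ _ _ => abs_nonneg _)
    intro x hx
    rw [mem_Ico] at hx ⊢
    omega
  · obtain ⟨n, hn⟩ := Int.eq_ofNat_of_zero_le (sub_nonneg.2 h)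
    have h1 := key n m0
    rw [show m0 + (n : ℤ) = m by omega] at h1
    refine h1.trans (sum_le_sum_of_subset_of_nonneg ?_ fun _ _ _ => abs_nonneg _)
    intro x hx
    rw [mem_Ico] at hx ⊢
    omega

/-- **The near term, exact.** -/
theorem near_id (K D : ℕ) (m0 : ℤ) (g f : ℤ → ℝ)
    (h1 : ∑ m ∈ wn D m0, ∑ x ∈ iv K m, g x = 1) :
    ∑ m ∈ wn D m0, ∑ x ∈ iv K m, g x * f x - mn K f m0 =
      ∑ m ∈ wn D m0, (∑ x ∈ iv K m, g x) * (mn K f m - mn K f m0) +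
      ∑ m ∈ wn D m0, ∑ j ∈ range K, ∑ i ∈ iv (K - (j + 1)) m,
        2 ^ (j + 1) * (gh (j + 1) g i * gh (j + 1) f i) := by
  have e : ∀ m ∈ wn D m0, ∑ x ∈ iv K m, g x * f x = (∑ x ∈ iv K m, g x) * mn K f m +
      ∑ j ∈ range K, ∑ i ∈ iv (K - (j + 1)) m,
        2 ^ (j + 1) * (gh (j + 1) g i * gh (j + 1) f i) := by
    intro m _
    rw [cell_exp]
    congr 1
    have : (∑ x ∈ iv K m, g x) = 2 ^ K * mn K g m := by
      unfold mn
      rw [mul_inv_cancel_left₀ (by positivity)]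
    rw [this]
    ring
  rw [sum_congr rfl e, sum_add_distrib]
  simp only [mul_sub, sum_sub_distrib]
  rw [← sum_mul, h1, one_mul]
  ring

/-- geometric weights -/
theorem geo_sq (K : ℕ) (y : ℕ → ℝ) :
    (∑ j ∈ range K, y j) ^ 2 ≤ 4 * ∑ j ∈ range K, (4 / 3 : ℝ) ^ (K - (j + 1)) * y j ^ 2 := by
  have h1 := sum_mul_sq_le_sq_mul_sq (range K) (fun j => √((3 / 4 : ℝ) ^ (K - (j + 1))))
    (fun j => √((4 / 3 : ℝ) ^ (K - (j + 1))) * y j)
  have e1 : ∀ j ∈ range K, √((3 / 4 : ℝ) ^ (K - (j + 1))) *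
      (√((4 / 3 : ℝ) ^ (K - (j + 1))) * y j) = y j := by
    intro j _
    rw [← mul_assoc, ← Real.sqrt_mul (by positivity), ← mul_pow]
    norm_num
  rw [sum_congr rfl e1] at h1
  have e2 : ∀ j ∈ range K, √((3 / 4 : ℝ) ^ (K - (j + 1))) ^ 2 = (3 / 4 : ℝ) ^ (K - (j + 1)) :=
    fun j _ => Real.sq_sqrt (by positivity)
  have e3 : ∀ j ∈ range K, (√((4 / 3 : ℝ) ^ (K - (j + 1))) * y j) ^ 2 =
      (4 / 3 : ℝ) ^ (K - (j + 1)) * y j ^ 2 := by
    intro j _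
    rw [mul_pow, Real.sq_sqrt (by positivity)]
  rw [sum_congr rfl e2, sum_congr rfl e3] at h1
  have h2 : ∑ j ∈ range K, (3 / 4 : ℝ) ^ (K - (j + 1)) ≤ 4 := by
    have e4 : ∑ j ∈ range K, (3 / 4 : ℝ) ^ (K - (j + 1)) = ∑ j ∈ range K, (3 / 4 : ℝ) ^ j := by
      rw [← sum_range_reflect]
      refine sum_congr rfl fun j hj => ?_
      rw [mem_range] at hj
      congr 1
      omega
    rw [e4, geom_sum_eq (by norm_num)]
    have : (0 : ℝ) ≤ (3 / 4) ^ K := by positivity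
    rw [div_le_iff_of_neg (by norm_num)]
    linarith
  exact h1.trans (mul_le_mul_of_nonneg_right h2 (sum_nonneg fun j _ => by positivity))

/-- one scale of the Haar pieces -/
theorem pieces_sq {K D j : ℕ} (hj : j < K) {m0 : ℤ} {g : ℤ → ℝ} (f : ℤ → ℝ) {C : ℝ} (hC : 0 ≤ C)
    (hg : ∀ z, |g (z + 1) - g z| ≤ C / 4 ^ K) :
    4 * ((4 / 3 : ℝ) ^ (K - (j + 1)) * (∑ m ∈ wn D m0, ∑ i ∈ iv (K - (j + 1)) m,
        2 ^ (j + 1) * (gh (j + 1) g i * gh (j + 1) f i)) ^ 2) ≤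
      C ^ 2 * (2 * D + 1) * ((1 / 6 : ℝ) ^ (K - (j + 1)) *
        ∑ m ∈ wn D m0, ∑ i ∈ iv (K - (j + 1)) m, gh (j + 1) f i ^ 2) := by
  obtain ⟨r, rfl⟩ : ∃ r, K = j + 1 + r := ⟨K - (j + 1), by omega⟩
  rw [Nat.add_sub_cancel_left]
  have hc : ((wn D m0).card : ℝ) = 2 * D + 1 := by
    rw [card_wn]
    push_cast
    ring
  have q0 : ∀ i : ℤ, (2 ^ (j + 1) * (gh (j + 1) g i * gh (j + 1) f i)) ^ 2 ≤
      (C / 4 * (1 / 4) ^ r) ^ 2 * gh (j + 1) f i ^ 2 := by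
    intro i
    have a1 : |(2 : ℝ) ^ (j + 1) * gh (j + 1) g i| ≤ C / 4 * (1 / 4) ^ r := by
      rw [abs_mul, abs_of_pos (by positivity : (0 : ℝ) < 2 ^ (j + 1))]
      refine (mul_le_mul_of_nonneg_left (gh_lip hg j i) (by positivity)).trans (le_of_eq ?_)
      have e4 : (4 : ℝ) ^ (j + 1 + r) = 2 ^ j * 2 ^ j * 4 * 4 ^ r := by
        rw [pow_add, pow_succ, show (4 : ℝ) ^ j = 2 ^ j * 2 ^ j by rw [← mul_pow]; norm_num]
      have p1 : (2 : ℝ) ^ j ≠ 0 := by positivity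
      have p2 : (4 : ℝ) ^ r ≠ 0 := by positivity
      rw [e4, one_div_pow, pow_succ]
      field_simp
    have a2 : (2 ^ (j + 1) * (gh (j + 1) g i * gh (j + 1) f i)) ^ 2 =
        |(2 : ℝ) ^ (j + 1) * gh (j + 1) g i| ^ 2 * gh (j + 1) f i ^ 2 := by
      rw [sq_abs]
      ring
    rw [a2]
    exact mul_le_mul_of_nonneg_right (pow_le_pow_left₀ (abs_nonneg _) a1 2) (sq_nonneg _)
  have q1 : (∑ m ∈ wn D m0, ∑ i ∈ iv r m,
      2 ^ (j + 1) * (gh (j + 1) g i * gh (j + 1) f i)) ^ 2 ≤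
      (2 * D + 1) * (2 ^ r * ((C / 4 * (1 / 4) ^ r) ^ 2 *
        ∑ m ∈ wn D m0, ∑ i ∈ iv r m, gh (j + 1) f i ^ 2)) := by
    refine (sq_sum_le_card_mul_sum_sq).trans ?_
    rw [hc]
    refine mul_le_mul_of_nonneg_left ?_ (by positivity)
    rw [mul_sum, mul_sum]
    refine sum_le_sum fun m _ => ?_
    refine (sq_sum_le_card_mul_sum_sq).trans ?_
    rw [card_iv]
    push_cast
    refine mul_le_mul_of_nonneg_left ?_ (by positivity)
    rw [mul_sum]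
    exact sum_le_sum fun i _ => q0 i
  have hE0 : 0 ≤ ∑ m ∈ wn D m0, ∑ i ∈ iv r m, gh (j + 1) f i ^ 2 :=
    sum_nonneg fun m _ => sum_nonneg fun i _ => sq_nonneg _
  generalize ∑ m ∈ wn D m0, ∑ i ∈ iv r m, gh (j + 1) f i ^ 2 = E at q1 hE0 ⊢
  generalize ∑ m ∈ wn D m0, ∑ i ∈ iv r m,
      2 ^ (j + 1) * (gh (j + 1) g i * gh (j + 1) f i) = Y at q1 ⊢
  have e6 : (1 / 6 : ℝ) ^ r = (4 / 3) ^ r * 2 ^ r * ((1 / 4) ^ r * (1 / 4) ^ r) := by
    rw [← mul_pow, ← mul_pow, ← mul_pow]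
    norm_num
  have p3 : (0 : ℝ) ≤ (4 / 3) ^ r := by positivity
  have q4 := mul_le_mul_of_nonneg_left q1 p3
  have q5 : (4 / 3 : ℝ) ^ r * ((2 * D + 1) * (2 ^ r * ((C / 4 * (1 / 4) ^ r) ^ 2 * E))) =
      (1 / 16) * (C ^ 2 * (2 * D + 1) * ((1 / 6) ^ r * E)) := by
    rw [e6]
    ring
  have q6 : (0 : ℝ) ≤ C ^ 2 * (2 * D + 1) * ((1 / 6) ^ r * E) :=
    mul_nonneg (mul_nonneg (sq_nonneg _) (by positivity)) (mul_nonneg (by positivity) hE0)
  rw [q5] at q4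
  linarith

/-- **The near term, squared.** -/
theorem near_sq {K D : ℕ} {m0 : ℤ} {g : ℤ → ℝ} (f : ℤ → ℝ) {C W : ℝ}
    (h1 : ∑ m ∈ wn D m0, ∑ x ∈ iv K m, g x = 1)
    (hg : ∀ z, |g (z + 1) - g z| ≤ C / 4 ^ K)
    (hW : ∑ m ∈ wn D m0, |∑ x ∈ iv K m, g x| ≤ W) :
    (∑ m ∈ wn D m0, ∑ x ∈ iv K m, g x * f x - mn K f m0) ^ 2 ≤
      2 * (W ^ 2 * (2 * D) * ∑ i ∈ Ico (m0 - D) (m0 + D), (mn K f (i + 1) - mn K f i) ^ 2) +
      2 * (C ^ 2 * (2 * D + 1) * ∑ j ∈ range K, (1 / 6 : ℝ) ^ (K - (j + 1)) *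
        ∑ m ∈ wn D m0, ∑ i ∈ iv (K - (j + 1)) m, gh (j + 1) f i ^ 2) := by
  rw [near_id K D m0 g f h1]
  have hC : 0 ≤ C := by
    have h := (abs_nonneg _).trans (hg 0)
    rwa [le_div_iff₀ (by positivity), zero_mul] at h
  have hW0 : 0 ≤ W := (sum_nonneg fun _ _ => abs_nonneg _).trans hW
  -- second bracket
  have bY : (∑ m ∈ wn D m0, ∑ j ∈ range K, ∑ i ∈ iv (K - (j + 1)) m,
        2 ^ (j + 1) * (gh (j + 1) g i * gh (j + 1) f i)) ^ 2 ≤
      C ^ 2 * (2 * D + 1) * ∑ j ∈ range K, (1 / 6 : ℝ) ^ (K - (j + 1)) *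
        ∑ m ∈ wn D m0, ∑ i ∈ iv (K - (j + 1)) m, gh (j + 1) f i ^ 2 := by
    rw [sum_comm]
    refine (geo_sq K _).trans ?_
    rw [mul_sum, mul_sum]
    exact sum_le_sum fun j hj => pieces_sq (mem_range.1 hj) f hC hg
  -- first bracket
  have bX : (∑ m ∈ wn D m0, (∑ x ∈ iv K m, g x) * (mn K f m - mn K f m0)) ^ 2 ≤
      W ^ 2 * (2 * D) * ∑ i ∈ Ico (m0 - D) (m0 + D), (mn K f (i + 1) - mn K f i) ^ 2 := by
    set Z := ∑ i ∈ Ico (m0 - D) (m0 + D), |mn K f (i + 1) - mn K f i| with hZ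
    have Z0 : 0 ≤ Z := sum_nonneg fun i _ => abs_nonneg _
    have q1 : |∑ m ∈ wn D m0, (∑ x ∈ iv K m, g x) * (mn K f m - mn K f m0)| ≤ W * Z := by
      refine (abs_sum_le_sum_abs _ _).trans ?_
      refine le_trans ?_ (mul_le_mul_of_nonneg_right hW Z0)
      rw [sum_mul]
      refine sum_le_sum fun m hm => ?_
      rw [abs_mul]
      exact mul_le_mul_of_nonneg_left (wn_nd D m0 (mn K f) hm) (abs_nonneg _)
    have q2 : Z ^ 2 ≤ (2 * D) * ∑ i ∈ Ico (m0 - D) (m0 + D), (mn K f (i + 1) - mn K f i) ^ 2 := by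
      have h := sq_sum_le_card_mul_sum_sq (s := Ico (m0 - (D : ℤ)) (m0 + D))
        (f := fun i => |mn K f (i + 1) - mn K f i|)
      simp only [sq_abs] at h
      have hc : ((Ico (m0 - (D : ℤ)) (m0 + D)).card : ℝ) = 2 * D := by
        rw [Int.card_Ico]
        have : (m0 + D - (m0 - D) : ℤ) = ((2 * D : ℕ) : ℤ) := by push_cast; ring
        rw [this, Int.toNat_natCast]
        push_cast
        ring
      rw [hc] at h
      exact h
    rw [← sq_abs]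
    refine (pow_le_pow_left₀ (abs_nonneg _) q1 2).trans ?_
    rw [mul_pow, mul_assoc]
    exact mul_le_mul_of_nonneg_left q2 (sq_nonneg _)
  generalize (∑ m ∈ wn D m0, ∑ j ∈ range K, ∑ i ∈ iv (K - (j + 1)) m,
        2 ^ (j + 1) * (gh (j + 1) g i * gh (j + 1) f i)) = Y at bY ⊢
  generalize (∑ m ∈ wn D m0, (∑ x ∈ iv K m, g x) * (mn K f m - mn K f m0)) = X at bX ⊢
  have h2 : (X + Y) ^ 2 ≤ 2 * X ^ 2 + 2 * Y ^ 2 := by nlinarith [sq_nonneg (X - Y)]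
  linarith

end

end Vale.Agent.P141.H352
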