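import Vale.Agent.P141.H352.Abel

/-!
# P141, line (A), real ties: planes and their two-scale relations

`p k j x`: the plane `ix k x1 + ix k x2 + ix k x3 = j` of scale `k`, mass one in each variable.
`D`, `D2`: first and second difference of planes.  `D_step`, `D2_step`: the two-scale relations;
every term without a sign is a difference of planes again, with the factor `1/2` resp. `1/4`.
`D_expand`, `D2_expand`: iterated.  `kap_*`: the kernel of one step of the Abel line.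
-/

namespace Vale.Agent.P141.H352

open Finset
open Vale.Agent.P141.PL

noncomputable section

/-- the plane of scale `k` and index `j` -/
def p (k : ℕ) (j : ℤ) (x : Pt) : ℝ :=
  if ix k x.1 + ix k x.2.1 + ix k x.2.2 = j then ((2 : ℝ) ^ k)⁻¹ else 0

/-- first difference of planes -/
def D (k : ℕ) (j : ℤ) (x : Pt) : ℝ := p k j x - p k (j - 1) x

/-- second difference of planes -/
def D2 (k : ℕ) (j : ℤ) (x : Pt) : ℝ := p k j x - 2 * p k (j - 1) x + p k (j - 2) x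

/-- sum of the signs of scale `k + 1` -/
def e1 (k : ℕ) (x : Pt) : ℝ := hs (k + 1) x.1 + hs (k + 1) x.2.1 + hs (k + 1) x.2.2

/-- sum of the products of two signs -/
def e2 (k : ℕ) (x : Pt) : ℝ :=
  hs (k + 1) x.1 * hs (k + 1) x.2.1 + hs (k + 1) x.1 * hs (k + 1) x.2.2 +
    hs (k + 1) x.2.1 * hs (k + 1) x.2.2

/-- product of the three signs -/
def e3 (k : ℕ) (x : Pt) : ℝ := hs (k + 1) x.1 * hs (k + 1) x.2.1 * hs (k + 1) x.2.2

theorem pow_inv_succ (k : ℕ) : ((2 : ℝ) ^ (k + 1))⁻¹ = ((2 : ℝ) ^ k)⁻¹ / 2 := by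
  rw [pow_succ, mul_inv]; ring

/-- a plane of even index -/
theorem p_even (k : ℕ) (i : ℤ) (x : Pt) :
    p k (2 * i) x = 1 / 4 * (p (k + 1) i x + 3 * p (k + 1) (i - 1) x)
      + 1 / 4 * e1 k x * (p (k + 1) i x - p (k + 1) (i - 1) x)
      + 1 / 4 * e2 k x * (p (k + 1) i x - p (k + 1) (i - 1) x)
      + 1 / 4 * e3 k x * (p (k + 1) i x + 3 * p (k + 1) (i - 1) x) := by
  unfold p e1 e2 e3
  rw [pow_inv_succ]
  rcases hs_digit k x.1 with ⟨h1, s1⟩ | ⟨h1, s1⟩ <;>
    rcases hs_digit k x.2.1 with ⟨h2, s2⟩ | ⟨h2, s2⟩ <;>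
    rcases hs_digit k x.2.2 with ⟨h3, s3⟩ | ⟨h3, s3⟩ <;>
    rw [h1, h2, h3, s1, s2, s3] <;>
    split_ifs <;> first | omega | ring

/-- a plane of odd index -/
theorem p_odd (k : ℕ) (i : ℤ) (x : Pt) :
    p k (2 * i + 1) x = 1 / 4 * (3 * p (k + 1) i x + p (k + 1) (i - 1) x)
      + 1 / 4 * e1 k x * (p (k + 1) i x - p (k + 1) (i - 1) x)
      - 1 / 4 * e2 k x * (p (k + 1) i x - p (k + 1) (i - 1) x)
      - 1 / 4 * e3 k x * (3 * p (k + 1) i x + p (k + 1) (i - 1) x) := by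
  unfold p e1 e2 e3
  rw [pow_inv_succ]
  rcases hs_digit k x.1 with ⟨h1, s1⟩ | ⟨h1, s1⟩ <;>
    rcases hs_digit k x.2.1 with ⟨h2, s2⟩ | ⟨h2, s2⟩ <;>
    rcases hs_digit k x.2.2 with ⟨h3, s3⟩ | ⟨h3, s3⟩ <;>
    rw [h1, h2, h3, s1, s2, s3] <;>
    split_ifs <;> first | omega | ring

/-- the twisted part of the first difference, scale `k`, index `j`; everything on the right lives
on the scale `k + 1` -/
def G (k : ℕ) (j : ℤ) (x : Pt) : ℝ :=
  if j % 2 = 0 then
    1 / 4 * (-D2 (k + 1) (j / 2) x + e1 k x * D2 (k + 1) (j / 2) x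
      + e2 k x * (D (k + 1) (j / 2) x + D (k + 1) (j / 2 - 1) x)
      + e3 k x * (p (k + 1) (j / 2) x + 6 * p (k + 1) (j / 2 - 1) x + p (k + 1) (j / 2 - 2) x))
  else
    -(1 / 2) * (e2 k x * D (k + 1) (j / 2) x)
      - e3 k x * (p (k + 1) (j / 2) x + p (k + 1) (j / 2 - 1) x)

/-- the twisted part of the second difference -/
def G2 (k : ℕ) (j : ℤ) (x : Pt) : ℝ :=
  if j % 2 = 0 then
    1 / 4 * (e1 k x * D2 (k + 1) (j / 2) x
      + e2 k x * (D (k + 1) (j / 2) x + 3 * D (k + 1) (j / 2 - 1) x)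
      + e3 k x * (p (k + 1) (j / 2) x + 10 * p (k + 1) (j / 2 - 1) x
        + 5 * p (k + 1) (j / 2 - 2) x))
  else
    -(1 / 4) * (e1 k x * D2 (k + 1) (j / 2) x
      + e2 k x * (3 * D (k + 1) (j / 2) x + D (k + 1) (j / 2 - 1) x)
      + e3 k x * (5 * p (k + 1) (j / 2) x + 10 * p (k + 1) (j / 2 - 1) x
        + p (k + 1) (j / 2 - 2) x))

/-- **First difference, two-scale relation.** -/
theorem D_step (k : ℕ) (j : ℤ) (x : Pt) : D k j x = 1 / 2 * D (k + 1) (j / 2) x + G k j x := by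
  rcases Int.emod_two_eq_zero_or_one j with h | h
  · obtain ⟨i, rfl⟩ : ∃ i, j = 2 * i := ⟨j / 2, by omega⟩
    have h1 : 2 * i - 1 = 2 * (i - 1) + 1 := by ring
    have h2 : 2 * i / 2 = i := by omega
    unfold G
    rw [if_pos h, h2]
    unfold D D2
    rw [h1, p_even, p_odd]
    have h3 : i - 1 - 1 = i - 2 := by ring
    rw [h3]
    ring
  · obtain ⟨i, rfl⟩ : ∃ i, j = 2 * i + 1 := ⟨j / 2, by omega⟩
    have h1 : 2 * i + 1 - 1 = 2 * i := by ring
    have h2 : (2 * i + 1) / 2 = i := by omega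
    unfold G
    rw [if_neg (by omega), h2]
    unfold D
    rw [h1, p_even, p_odd]
    ring

/-- **Second difference, two-scale relation.** -/
theorem D2_step (k : ℕ) (j : ℤ) (x : Pt) :
    D2 k j x = 1 / 4 * D2 (k + 1) (j / 2) x + G2 k j x := by
  rcases Int.emod_two_eq_zero_or_one j with h | h
  · obtain ⟨i, rfl⟩ : ∃ i, j = 2 * i := ⟨j / 2, by omega⟩
    have h1 : 2 * i - 1 = 2 * (i - 1) + 1 := by ring
    have h1' : 2 * i - 2 = 2 * (i - 1) := by ring
    have h2 : 2 * i / 2 = i := by omega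
    unfold G2
    rw [if_pos h, h2]
    unfold D D2
    rw [h1, h1', p_even, p_odd, p_even]
    have h3 : i - 1 - 1 = i - 2 := by ring
    rw [h3]
    ring
  · obtain ⟨i, rfl⟩ : ∃ i, j = 2 * i + 1 := ⟨j / 2, by omega⟩
    have h1 : 2 * i + 1 - 1 = 2 * i := by ring
    have h1' : 2 * i + 1 - 2 = 2 * (i - 1) + 1 := by ring
    have h2 : (2 * i + 1) / 2 = i := by omega
    unfold G2
    rw [if_neg (by omega), h2]
    unfold D D2
    rw [h1, h1', p_even, p_odd, p_odd]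
    have h3 : i - 1 - 1 = i - 2 := by ring
    rw [h3]
    ring

/-- **First difference, expanded over the coarser scales.** -/
theorem D_expand (k : ℕ) (j : ℤ) (x : Pt) (R : ℕ) :
    D k j x = ∑ r ∈ range R, (1 / 2 : ℝ) ^ r * G (k + r) (j / 2 ^ r) x
      + (1 / 2 : ℝ) ^ R * D (k + R) (j / 2 ^ R) x := by
  induction R with
  | zero => simp
  | succ R ih =>
    rw [ih, sum_range_succ, D_step (k + R)]
    have h : j / 2 ^ R / 2 = j / 2 ^ (R + 1) := by
      rw [pow_succ, Int.ediv_ediv_of_nonneg (by positivity)]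
    rw [h, pow_succ (1 / 2 : ℝ), ← add_assoc k R 1]
    ring

/-- **Second difference, expanded over the coarser scales.** -/
theorem D2_expand (k : ℕ) (j : ℤ) (x : Pt) (R : ℕ) :
    D2 k j x = ∑ r ∈ range R, (1 / 4 : ℝ) ^ r * G2 (k + r) (j / 2 ^ r) x
      + (1 / 4 : ℝ) ^ R * D2 (k + R) (j / 2 ^ R) x := by
  induction R with
  | zero => simp
  | succ R ih =>
    rw [ih, sum_range_succ, D2_step (k + R)]
    have h : j / 2 ^ R / 2 = j / 2 ^ (R + 1) := by
      rw [pow_succ, Int.ediv_ediv_of_nonneg (by positivity)]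
    rw [h, pow_succ (1 / 4 : ℝ), ← add_assoc k R 1]
    ring

/-! ### One step of the Abel line: the planes `c k`, with `0 ≤ c k - 2 c (k + 1) ≤ 3` -/

theorem kap_zero (k : ℕ) (c : ℤ) (x : Pt) :
    p k (2 * c) x - p (k + 1) c x = -(3 / 4) * D (k + 1) c x + 1 / 4 * e1 k x * D (k + 1) c x
      + 1 / 4 * e2 k x * D (k + 1) c x
      + 1 / 4 * e3 k x * (p (k + 1) c x + 3 * p (k + 1) (c - 1) x) := by
  rw [p_even]; unfold D; ring

theorem kap_one (k : ℕ) (c : ℤ) (x : Pt) :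
    p k (2 * c + 1) x - p (k + 1) c x = -(1 / 4) * D (k + 1) c x
      + 1 / 4 * e1 k x * D (k + 1) c x - 1 / 4 * e2 k x * D (k + 1) c x
      - 1 / 4 * e3 k x * (3 * p (k + 1) c x + p (k + 1) (c - 1) x) := by
  rw [p_odd]; unfold D; ring

theorem kap_two (k : ℕ) (c : ℤ) (x : Pt) :
    p k (2 * c + 2) x - p (k + 1) c x = 1 / 4 * D (k + 1) (c + 1) x
      + 1 / 4 * e1 k x * D (k + 1) (c + 1) x + 1 / 4 * e2 k x * D (k + 1) (c + 1) x
      + 1 / 4 * e3 k x * (p (k + 1) (c + 1) x + 3 * p (k + 1) c x) := by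
  have h : 2 * c + 2 = 2 * (c + 1) := by ring
  have h' : c + 1 - 1 = c := by ring
  rw [h, p_even]; unfold D; rw [h']; ring

theorem kap_three (k : ℕ) (c : ℤ) (x : Pt) :
    p k (2 * c + 3) x - p (k + 1) c x = 3 / 4 * D (k + 1) (c + 1) x
      + 1 / 4 * e1 k x * D (k + 1) (c + 1) x - 1 / 4 * e2 k x * D (k + 1) (c + 1) x
      - 1 / 4 * e3 k x * (3 * p (k + 1) (c + 1) x + p (k + 1) c x) := by
  have h : 2 * c + 3 = 2 * (c + 1) + 1 := by ring
  have h' : c + 1 - 1 = c := by ring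
  rw [h, p_odd]; unfold D; rw [h']; ring

end

end Vale.Agent.P141.H352
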