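import Vale.Agent.P141.H708.KillT
import Vale.Agent.P141.H922.NbAB3

/-!
# P141, line (A), near term: the change numbers in mass form

Two families `f`, `f'` (times `t`, `t + 1`), no hypothesis on the change.  `zk` is the sum over the
outer cells of scale `t` and the middle cells of scale `l` of the product of the square roots of the
masses of `f' - f` and `f' + f`.

* `EW_zk`, `MW_zk` : change of the own energy and of the plane functional;
* `chg_zk` : the structure `H922.NB.Chg` with these numbers;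
* `sum_zk` : the numbers summed over `x0` and the scales, masses per square at most `mu`.
-/

namespace Vale.Agent.P141.H352

open Finset Matrix Vale.Agent.P141.PL Vale.Agent.P141.PL.H103 Vale.Agent.P141.H103
open Vale.Agent.P141.H588G Vale.Agent.P141.H708
open Vale.Agent.P075 (Ix val)
open Vale.Agent.P141.H922.NB (QU Chg)

noncomputable section

variable {κ κ' : Type*} [Fintype κ] [Fintype κ']

/-- the mass of a family on a rectangle -/
def ms (t l : ℕ) (f : ℤ → ℤ → κ → ℝ) (n m : ℤ) : ℝ :=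
  ∑ x ∈ iv t n, ∑ y ∈ iv l m, f x y ⬝ᵥ f x y

theorem ms_nonneg (t l : ℕ) (f : ℤ → ℤ → κ → ℝ) (n m : ℤ) : 0 ≤ ms t l f n m :=
  sum_nonneg fun _ _ => sum_nonneg fun _ _ => nsq0 _

/-- the change number of a rectangle -/
def zn (t l : ℕ) (f f' : ℤ → ℤ → κ → ℝ) (n m : ℤ) : ℝ :=
  √(ms t l (fun x y => f' x y - f x y) n m) * √(ms t l (fun x y => f' x y + f x y) n m)

theorem zn_nonneg (t l : ℕ) (f f' : ℤ → ℤ → κ → ℝ) (n m : ℤ) : 0 ≤ zn t l f f' n m :=
  mul_nonneg (Real.sqrt_nonneg _) (Real.sqrt_nonneg _)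

/-- **The change number** of scale `t` at middle scale `l`. -/
def zk (N : ℕ) (R S : ℤ) (t l : ℕ) (f f' : ℤ → ℤ → κ → ℝ) : ℝ :=
  ∑ m ∈ iv (N - l) S, ∑ n ∈ iv (N - t) R, zn t l f f' n m

theorem zk_nonneg (N : ℕ) (R S : ℤ) (t l : ℕ) (f f' : ℤ → ℤ → κ → ℝ) :
    0 ≤ zk N R S t l f f' :=
  sum_nonneg fun _ _ => sum_nonneg fun _ _ => zn_nonneg ..

theorem inf_theta {X τ D S : ℝ} (hD : 0 ≤ D) (hS : 0 ≤ S) (hτ : 0 ≤ τ)
    (h : ∀ θ : ℝ, 0 < θ → X ≤ τ * (θ / 2 * D + θ⁻¹ / 2 * S)) : X ≤ τ * (√D * √S) := by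
  rcases hD.eq_or_lt with h0 | hD
  · rw [← h0, Real.sqrt_zero, zero_mul, mul_zero]
    by_contra hX
    push Not at hX
    have h1 : 0 < τ * S + 1 := by positivity
    have h2 := h ((τ * S + 1) / X) (by positivity)
    rw [← h0, mul_zero, zero_add, inv_div] at h2
    have h3 : τ * (X / (τ * S + 1) / 2 * S) = X * (τ * S) / (2 * (τ * S + 1)) := by
      field_simp
    rw [h3, le_div_iff₀ (by positivity)] at h2
    nlinarith [mul_pos hX h1, mul_nonneg hX.le (mul_nonneg hτ hS)]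
  rcases hS.eq_or_lt with h0 | hS
  · rw [← h0, Real.sqrt_zero, mul_zero, mul_zero]
    by_contra hX
    push Not at hX
    have h1 : 0 < τ * D + 1 := by positivity
    have h2 := h (X / (τ * D + 1)) (by positivity)
    rw [← h0, mul_zero, add_zero] at h2
    have h3 : τ * (X / (τ * D + 1) / 2 * D) = X * (τ * D) / (2 * (τ * D + 1)) := by
      field_simp
    rw [h3, le_div_iff₀ (by positivity)] at h2
    nlinarith [mul_pos hX h1, mul_nonneg hX.le (mul_nonneg hτ hD.le)]
  have a : 0 < √D := Real.sqrt_pos.2 hD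
  have b : 0 < √S := Real.sqrt_pos.2 hS
  have h1 := h (√S / √D) (div_pos b a)
  refine h1.trans (le_of_eq ?_)
  have e1 : √S / √D / 2 * D = √D * √S / 2 := by
    rw [div_div, div_mul_eq_mul_div, div_eq_div_iff (by positivity) (by positivity)]
    nlinarith [Real.mul_self_sqrt hD.le]
  have e2 : (√S / √D)⁻¹ / 2 * S = √D * √S / 2 := by
    rw [inv_div, div_div, div_mul_eq_mul_div, div_eq_div_iff (by positivity) (by positivity)]
    nlinarith [Real.mul_self_sqrt hS.le]
  rw [e1, e2]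
  ring

/-- the change of the rows of one cell -/
theorem cell_zk {t l : ℕ} {f f' : ℤ → ℤ → κ → ℝ} {τ : ℝ} (τ0 : 0 ≤ τ) {n m : ℤ}
    {Z : Matrix (Ix l) (Ix l) ℝ} (hZ : Z.PosSemidef)
    (hτ : (τ • (1 : Matrix (Ix l) (Ix l) ℝ) - Z).PosSemidef) :
    (Z * ∑ x ∈ iv t n, (Rw f' l m x * (Rw f' l m x)ᵀ - Rw f l m x * (Rw f l m x)ᵀ)).trace ≤
      τ * zn t l f f' n m := by
  classical
  unfold zn
  refine inf_theta (ms_nonneg ..) (ms_nonneg ..) τ0 fun θ hθ => ?_
  unfold ms
  rw [Matrix.mul_sum, trace_sum, mul_sum, mul_sum, ← sum_add_distrib, mul_sum]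
  refine sum_le_sum fun x _ => ?_
  have h := row_chg hZ (PosSemidef.one (n := κ)) hτ
    (w := 1) (by rw [one_smul, sub_self]; exact PosSemidef.zero) τ0 hθ (Rw f l m x) (Rw f' l m x)
  rw [Rw_add, Rw_sub, hs_Rw, hs_Rw, Matrix.mul_one, Matrix.mul_one, mul_one] at h
  exact h

/-- the change of a family against `Z` -/
theorem QW_zk {t l a : ℕ} (hta : t ≤ a) {f f' : ℤ → ℤ → κ → ℝ} {τ : ℝ} (τ0 : 0 ≤ τ) {n m : ℤ}
    [DecidableEq κ] {Z : Matrix (Ix l) (Ix l) ℝ} (hZ : Z.PosSemidef)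
    (hτ : (τ • (1 : Matrix (Ix l) (Ix l) ℝ) - Z).PosSemidef) :
    (Z * (QW a l f' (fun _ => 1) n m - QW a l f (fun _ => 1) n m)).trace ≤
      ((2 : ℝ) ^ a * 2 ^ l)⁻¹ * (τ * ∑ n' ∈ iv (a - t) n, zn t l f f' n' m) := by
  rw [QW_eq_Rw, QW_eq_Rw, ← smul_sub, ← sum_sub_distrib, Matrix.mul_smul, trace_smul, smul_eq_mul]
  refine mul_le_mul_of_nonneg_left ?_ (by positivity)
  simp only [Matrix.mul_one]
  have e := fun F : ℤ → ℝ => sum_iv_iv t (a - t) n F
  simp only [show a - t + t = a by omega] at e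
  rw [Matrix.mul_sum, trace_sum, ← e, mul_sum]
  refine sum_le_sum fun n' _ => ?_
  rw [← trace_sum, ← Matrix.mul_sum]
  exact cell_zk τ0 hZ hτ

/-- **The change of the own energy.** -/
theorem EW_zk {N t l a : ℕ} {R S : ℤ} (hta : t ≤ a) (haN : a ≤ N) {f f' : ℤ → ℤ → κ → ℝ}
    [DecidableEq κ] {τ : ℝ} (τ0 : 0 ≤ τ)
    (cap : ∀ m ∈ iv (N - l) S, ∀ n ∈ iv (N - a) R,
      (τ • (1 : Matrix _ _ ℝ) - QW a l f' (fun _ => 1) n m).PosSemidef) :
    EW N R S l (fun a n m => QW a l f' (fun _ => 1) n m) a ≤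
      EW N R S l (fun a n m => QW a l f (fun _ => 1) n m) a + 2 * τ * zk N R S t l f f' := by
  unfold EW
  have key : ∀ m ∈ iv (N - l) S, ∀ n ∈ iv (N - a) R,
      (QW a l f' (fun _ => 1) n m * QW a l f' (fun _ => 1) n m).trace ≤
      (QW a l f (fun _ => 1) n m * QW a l f (fun _ => 1) n m).trace
        + 2 * (((2 : ℝ) ^ a * 2 ^ l)⁻¹ * (τ * ∑ n' ∈ iv (a - t) n, zn t l f f' n' m)) := by
    intro m hm n hn
    have p1 := QW_psd (a := a) (k := l) (b := f') (fun _ => PosSemidef.one (n := κ)) n m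
    have p2 := QW_psd (a := a) (k := l) (b := f) (fun _ => PosSemidef.one (n := κ)) n m
    have h1 := QW_zk hta (f := f) (f' := f') (m := m) (n := n) τ0 p1 (cap m hm n hn)
    have h2 := S2_sub_le (X := QW a l f' (fun _ => 1) n m) (Y := QW a l f (fun _ => 1) n m)
      (E := QW a l f' (fun _ => 1) n m - QW a l f (fun _ => 1) n m) p1 (psd_tr p2)
      (by rw [sub_self]; exact PosSemidef.zero)
    unfold S2 at h2
    linarith
  have h3 := mul_le_mul_of_nonneg_left (sum_le_sum fun m hm => sum_le_sum fun n hn =>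
    key m hm n hn) (show (0 : ℝ) ≤ 2 ^ a * 2 ^ l by positivity)
  refine h3.trans (le_of_eq ?_)
  have e : ∀ m, ∑ n ∈ iv (N - a) R, ∑ n' ∈ iv (a - t) n, zn t l f f' n' m =
      ∑ n' ∈ iv (N - t) R, zn t l f f' n' m := by
    intro m
    rw [sum_iv_iv (a - t) (N - a) R fun n' => zn t l f f' n' m,
      show N - a + (a - t) = N - t by omega]
  simp only [sum_add_distrib, ← mul_sum, e]
  unfold zk
  have h2 : (2 : ℝ) ^ a * 2 ^ l * ((2 : ℝ) ^ a * 2 ^ l)⁻¹ = 1 := mul_inv_cancel₀ (by positivity)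
  linear_combination (2 * (τ * ∑ m ∈ iv (N - l) S, ∑ n ∈ iv (N - t) R, zn t l f f' n m)) * h2

/-- **The change of the plane functional.** -/
theorem MW_zk {N t l : ℕ} {R S T : ℤ} (htl : t ≤ l) (hlN : l ≤ N) [DecidableEq κ]
    [DecidableEq κ'] {f f' : ℤ → ℤ → κ → ℝ} {g g' : ℤ → ℤ → κ' → ℝ} {τP τQ : ℝ}
    (P0 : 0 ≤ τP) (Q0 : 0 ≤ τQ)
    (capP : ∀ m ∈ iv (N - l) S, ∀ n ∈ iv (N - l) R,
      (τP • (1 : Matrix _ _ ℝ) - QW l l f (fun _ => 1) n m).PosSemidef)
    (capQ : ∀ m ∈ iv (N - l) S, ∀ n ∈ iv (N - l) T,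
      (τQ • (1 : Matrix _ _ ℝ) - QW l l g' (fun _ => 1) n m).PosSemidef) (c : ℤ) :
    MW N R S T l c (fun n m => QW l l f' (fun _ => 1) n m)
        (fun n m => QW l l g' (fun _ => 1) n m) ≤
      MW N R S T l c (fun n m => QW l l f (fun _ => 1) n m)
        (fun n m => QW l l g (fun _ => 1) n m)
        + (τQ * zk N R S t l f f' + τP * zk N T S t l g g') := by
  have pw : (4 : ℝ) ^ l * ((2 : ℝ) ^ l * 2 ^ l)⁻¹ = 1 := by
    rw [show (4 : ℝ) = 2 * 2 by norm_num, mul_pow]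
    field_simp
  unfold MW
  set w : ℝ := ((2 : ℝ) ^ l * 2 ^ l)⁻¹ with hw
  have w0 : 0 ≤ w := by positivity
  have key : ∀ m ∈ iv (N - l) S, ∀ n ∈ iv (N - l) R,
      (if c - m - n ∈ iv (N - l) T then
        (QW l l f' (fun _ => 1) n m * QW l l g' (fun _ => 1) (c - m - n) m).trace else 0) ≤
      (if c - m - n ∈ iv (N - l) T then
        (QW l l f (fun _ => 1) n m * QW l l g (fun _ => 1) (c - m - n) m).trace else 0)
      + (w * (τQ * ∑ n' ∈ iv (l - t) n, zn t l f f' n' m)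
        + (if c - m - n ∈ iv (N - l) T then
            w * (τP * ∑ n' ∈ iv (l - t) (c - m - n), zn t l g g' n' m) else 0)) := by
    intro m hm n hn
    have g0 : 0 ≤ w * (τQ * ∑ n' ∈ iv (l - t) n, zn t l f f' n' m) :=
      mul_nonneg w0 (mul_nonneg Q0 (sum_nonneg fun _ _ => zn_nonneg ..))
    split_ifs with hc
    · have z1 := QW_psd (a := l) (k := l) (b := g') (fun _ => PosSemidef.one (n := κ'))
        (c - m - n) m
      have z2 := QW_psd (a := l) (k := l) (b := f) (fun _ => PosSemidef.one (n := κ)) n m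
      have h1 := QW_zk htl (f := f) (f' := f') (n := n) (m := m) Q0 z1 (capQ m hm _ hc)
      have h2 := QW_zk htl (f := g) (f' := g') (n := c - m - n) (m := m) P0 z2 (capP m hm n hn)
      have e1 : (QW l l f' (fun _ => 1) n m * QW l l g' (fun _ => 1) (c - m - n) m).trace
          = (QW l l f (fun _ => 1) n m * QW l l g (fun _ => 1) (c - m - n) m).trace
            + (QW l l g' (fun _ => 1) (c - m - n) m * (QW l l f' (fun _ => 1) n m
              - QW l l f (fun _ => 1) n m)).trace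
            + (QW l l f (fun _ => 1) n m * (QW l l g' (fun _ => 1) (c - m - n) m
              - QW l l g (fun _ => 1) (c - m - n) m)).trace := by
        rw [Matrix.mul_sub, Matrix.mul_sub, trace_sub, trace_sub,
          trace_mul_comm (QW l l g' (fun _ => 1) (c - m - n) m) (QW l l f' (fun _ => 1) n m),
          trace_mul_comm (QW l l g' (fun _ => 1) (c - m - n) m) (QW l l f (fun _ => 1) n m)]
        ring
      rw [e1]
      linarith
    · simpa using g0
  have h3 := mul_le_mul_of_nonneg_left (sum_le_sum fun m hm => sum_le_sum fun n hn =>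
    key m hm n hn) (show (0 : ℝ) ≤ 4 ^ l by positivity)
  refine h3.trans ?_
  simp only [sum_add_distrib, mul_add]
  refine add_le_add le_rfl (add_le_add (le_of_eq ?_) ?_)
  · have e : ∀ m, ∑ n ∈ iv (N - l) R, ∑ n' ∈ iv (l - t) n, zn t l f f' n' m =
        ∑ n' ∈ iv (N - t) R, zn t l f f' n' m := by
      intro m
      rw [sum_iv_iv (l - t) (N - l) R fun n' => zn t l f f' n' m,
        show N - l + (l - t) = N - t by omega]
    simp only [← mul_sum, e]
    unfold zk
    linear_combination (τQ * ∑ m ∈ iv (N - l) S, ∑ n ∈ iv (N - t) R, zn t l f f' n m) * pw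
  · have e : ∀ m, ∑ n ∈ iv (N - l) R, (if c - m - n ∈ iv (N - l) T then
        w * (τP * ∑ n' ∈ iv (l - t) (c - m - n), zn t l g g' n' m) else 0) ≤
        w * (τP * ∑ n' ∈ iv (N - t) T, zn t l g g' n' m) := by
      intro m
      refine (H588.sum_refl_le (N - l) R T (c - m) (fun n => w * (τP *
        ∑ n' ∈ iv (l - t) n, zn t l g g' n' m)) fun n =>
        mul_nonneg w0 (mul_nonneg P0 (sum_nonneg fun _ _ => zn_nonneg ..))).trans (le_of_eq ?_)
      rw [← mul_sum, ← mul_sum, sum_iv_iv (l - t) (N - l) T fun n' => zn t l g g' n' m,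
        show N - l + (l - t) = N - t by omega]
    refine (mul_le_mul_of_nonneg_left (sum_le_sum fun m _ => e m)
      (by positivity : (0 : ℝ) ≤ 4 ^ l)).trans (le_of_eq ?_)
    simp only [← mul_sum]
    unfold zk
    linear_combination (τP * ∑ m ∈ iv (N - l) S, ∑ n ∈ iv (N - t) T, zn t l g g' n m) * pw

/-! ### The letters `PA`, `QU` -/

theorem QU_QW [DecidableEq κ] (b : ℤ → ℤ → κ → ℝ) (l : ℕ) :
    QU b l = fun a n m => QW a l b (fun _ => 1) n m := by
  funext a n m
  unfold H922.NB.QU QK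
  simp only [inv_one]

theorem PA_QW (A : ℤ → ℤ → ℝ) (l : ℕ) : PA A l = fun a n m => QW a l (un A) (fun _ => 1) n m := by
  funext a n m
  rw [PA_eq]
  unfold QK
  simp only [inv_one]

/-- the cap of a family at the time `t` on the rectangles coarser than `t` -/
def CapR (N : ℕ) (R S : ℤ) (τ : ℝ) (b : ℕ → ℤ → ℤ → κ → ℝ) [DecidableEq κ] : Prop :=
  ∀ t a l, 1 ≤ t → t ≤ a → t ≤ l → a ≤ N → l ≤ N → ∀ m ∈ iv (N - l) S, ∀ n ∈ iv (N - a) R,
    (τ • (1 : Matrix (Ix l) (Ix l) ℝ) - QW a l (b t) (fun _ => 1) n m).PosSemidef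

/-- **The changes of the pair in numbers**, any plane. -/
theorem chg_zk [DecidableEq κ] {N : ℕ} {R S T : ℤ} (c : ℕ → ℤ) {A : ℕ → ℤ → ℤ → ℝ}
    {b : ℕ → ℤ → ℤ → κ → ℝ} {τA τb : ℝ} (A0 : 0 ≤ τA) (b0 : 0 ≤ τb)
    (hA : CapR N R S τA fun t => un (A t)) (hb : CapR N T S τb b) :
    Chg N R S T c A b (fun j t _ => 2 * τA * zk N R S t (t + j) (un (A t)) (un (A (t + 1))))
      (fun j t _ => 2 * τb * zk N T S t (t + j) (b t) (b (t + 1)))
      (fun j t => τb * zk N R S t (t + j) (un (A t)) (un (A (t + 1))) +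
        τA * zk N T S t (t + j) (b t) (b (t + 1))) where
  hA j t hj ht htj a ha haN := by
    rw [PA_QW, PA_QW]
    exact EW_zk (by omega) haN A0 fun m hm n hn =>
      hA (t + 1) a (t + j) (by omega) ha (by omega) haN (by omega) m hm n hn
  hB j t hj ht htj a ha haN := by
    rw [QU_QW, QU_QW]
    exact EW_zk (by omega) haN b0 fun m hm n hn =>
      hb (t + 1) a (t + j) (by omega) ha (by omega) haN (by omega) m hm n hn
  hM j t hj ht htj := by
    rw [PA_QW, PA_QW, QU_QW, QU_QW]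
    exact MW_zk (by omega) (by omega) A0 b0
      (fun m hm n hn => hA t (t + j) (t + j) ht (by omega) (by omega) (by omega) (by omega) m hm n hn)
      (fun m hm n hn => hb (t + 1) (t + j) (t + j) (by omega) (by omega) (by omega) (by omega)
        (by omega) m hm n hn) _

/-! ### The sum over `x0` -/

open scoped Classical in
/-- packing of the affected squares, counted with `x0` -/
def pk3 (N : ℕ) (X R S : ℤ) (Q : ℕ → ℤ → ℤ → ℤ → Prop) : ℝ :=
  ∑ t ∈ range N, ∑ i ∈ iv (N - t) X, ∑ n ∈ iv (N - t) R, ∑ m ∈ iv (N - t) S,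
    if Q t i n m then (8 : ℝ) ^ t else 0

/-- data of a family at every `x0`: agreement off the affected squares, masses per square -/
structure Pm (N : ℕ) (X R S : ℤ) (mu : ℝ) (Q : ℕ → ℤ → ℤ → ℤ → Prop)
    (f : ℤ → ℕ → ℤ → ℤ → κ → ℝ) : Prop where
  ag : ∀ t < N, ∀ x0 ∈ iv N X, ∀ x ∈ iv N R, ∀ y ∈ iv N S, ¬ Q t (ix t x0) (ix t x) (ix t y) →
    f x0 (t + 1) x y = f x0 t x y
  m0 : ∀ t < N, ∀ i ∈ iv (N - t) X, ∀ n ∈ iv (N - t) R, ∀ m ∈ iv (N - t) S,
    ∑ x0 ∈ iv t i, ms t t (f x0 t) n m ≤ mu * 8 ^ t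
  m1 : ∀ t < N, ∀ i ∈ iv (N - t) X, ∀ n ∈ iv (N - t) R, ∀ m ∈ iv (N - t) S,
    ∑ x0 ∈ iv t i, ms t t (f x0 (t + 1)) n m ≤ mu * 8 ^ t

theorem ms_cells (t j : ℕ) (f : ℤ → ℤ → κ → ℝ) (n m : ℤ) :
    ms t (t + j) f n m = ∑ m' ∈ iv j m, ms t t f n m' := by
  unfold ms
  rw [sum_comm (s := iv j m)]
  exact sum_congr rfl fun x _ => sum_cells t j m fun y => f x y ⬝ᵥ f x y

theorem ms_sub (t : ℕ) (f f' : ℤ → ℤ → κ → ℝ) (n m : ℤ) :
    ms t t (fun x y => f' x y - f x y) n m ≤ 2 * ms t t f' n m + 2 * ms t t f n m := by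
  unfold ms
  rw [mul_sum, mul_sum, ← sum_add_distrib]
  refine sum_le_sum fun x _ => ?_
  rw [mul_sum, mul_sum, ← sum_add_distrib]
  exact sum_le_sum fun y _ => nsq_sub_le _ _

theorem ms_add (t : ℕ) (f f' : ℤ → ℤ → κ → ℝ) (n m : ℤ) :
    ms t t (fun x y => f' x y + f x y) n m ≤ 2 * ms t t f' n m + 2 * ms t t f n m := by
  unfold ms
  rw [mul_sum, mul_sum, ← sum_add_distrib]
  refine sum_le_sum fun x _ => ?_
  rw [mul_sum, mul_sum, ← sum_add_distrib]
  exact sum_le_sum fun y _ => nsq_add_le _ _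

open scoped Classical in
/-- **The change numbers summed over `x0` and the scales.** -/
theorem sum_zk {N j : ℕ} {X R S : ℤ} {mu : ℝ} {Q : ℕ → ℤ → ℤ → ℤ → Prop}
    {f : ℤ → ℕ → ℤ → ℤ → κ → ℝ} (h : Pm N X R S mu Q f) (hmu : 0 ≤ mu) :
    ∑ x0 ∈ iv N X, ∑ t ∈ Ico 1 (N - j), zk N R S t (t + j) (f x0 t) (f x0 (t + 1)) ≤
      4 * mu * √2 ^ j * pk3 N X R S Q := by
  rw [sum_comm]
  have one : ∀ t ∈ Ico 1 (N - j), ∑ x0 ∈ iv N X, zk N R S t (t + j) (f x0 t) (f x0 (t + 1)) ≤
      4 * mu * √2 ^ j * ∑ i ∈ iv (N - t) X, ∑ n ∈ iv (N - t) R, ∑ m ∈ iv (N - t) S,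
        if Q t i n m then (8 : ℝ) ^ t else 0 := by
    intro t ht
    rw [mem_Ico] at ht
    have htN : t < N := by omega
    have e1 := fun F : ℤ → ℝ => sum_iv_iv t (N - t) X F
    simp only [show N - t + t = N by omega] at e1
    rw [← e1, mul_sum]
    refine sum_le_sum fun i hi => ?_
    -- one cell of x0
    have cell : ∀ n ∈ iv (N - t) R, ∀ m ∈ iv (N - (t + j)) S,
        ∑ x0 ∈ iv t i, zn t (t + j) (f x0 t) (f x0 (t + 1)) n m ≤
          4 * mu * √2 ^ j * ∑ m' ∈ iv j m, if Q t i n m' then (8 : ℝ) ^ t else 0 := by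
      intro n hn m hm
      set ν : ℝ := ∑ m' ∈ iv j m, if Q t i n m' then (1 : ℝ) else 0 with hν
      have ν0 : 0 ≤ ν := sum_nonneg fun _ _ => by split_ifs <;> norm_num
      have e8 : ∑ m' ∈ iv j m, (if Q t i n m' then (8 : ℝ) ^ t else 0) = 8 ^ t * ν := by
        rw [hν, mul_sum]
        exact sum_congr rfl fun m' _ => by split_ifs <;> simp
      have νν : ν ≤ ν ^ 2 := by
        by_cases hq : ∀ m' ∈ iv j m, ¬ Q t i n m'
        · have : ν = 0 := sum_eq_zero fun m' hm' => if_neg (hq m' hm')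
          rw [this]
          norm_num
        · push Not at hq
          obtain ⟨m₀, hm₀, hq₀⟩ := hq
          have h1 := Finset.single_le_sum (f := fun m' => if Q t i n m' then (1 : ℝ) else 0)
            (fun j _ => by split_ifs <;> norm_num) hm₀
          rw [if_pos hq₀] at h1
          have h1' : 1 ≤ ν := h1
          nlinarith
      have hmem : ∀ m' ∈ iv j m, m' ∈ iv (N - t) S := by
        intro m' hm'
        have h := iv_sub hm hm'
        rwa [show N - (t + j) + j = N - t by omega] at h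
      -- the difference
      have hD : ∑ x0 ∈ iv t i, ms t (t + j) (fun x y => f x0 (t + 1) x y - f x0 t x y) n m ≤
          4 * mu * 8 ^ t * ν := by
        simp only [ms_cells]
        rw [sum_comm, hν, mul_sum]
        refine sum_le_sum fun m' hm' => ?_
        split_ifs with hq
        · refine (sum_le_sum fun x0 _ => ms_sub t _ _ n m').trans ?_
          rw [sum_add_distrib, ← mul_sum, ← mul_sum]
          have a1 := h.m0 t htN i hi n hn m' (hmem m' hm')
          have a2 := h.m1 t htN i hi n hn m' (hmem m' hm')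
          linarith
        · rw [mul_zero]
          refine le_of_eq (sum_eq_zero fun x0 hx0 => ?_)
          unfold ms
          refine sum_eq_zero fun x hx => sum_eq_zero fun y hy => ?_
          rw [mem_iv] at hx hy hx0
          beta_reduce
          rw [h.ag t htN x0 (pt_mem htN.le hi ((mem_iv).2 hx0)) x (pt_mem htN.le hn ((mem_iv).2 hx))
            y (pt_mem htN.le (hmem m' hm') ((mem_iv).2 hy)) (by rwa [hx0, hx, hy]), sub_self,
            dotProduct_zero]
      have hS : ∑ x0 ∈ iv t i, ms t (t + j) (fun x y => f x0 (t + 1) x y + f x0 t x y) n m ≤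
          4 * mu * 8 ^ t * 2 ^ j := by
        simp only [ms_cells]
        rw [sum_comm]
        have h1 : ∀ m' ∈ iv j m, ∑ x0 ∈ iv t i,
            ms t t (fun x y => f x0 (t + 1) x y + f x0 t x y) n m' ≤ 4 * mu * 8 ^ t := by
          intro m' hm'
          refine (sum_le_sum fun x0 _ => ms_add t _ _ n m').trans ?_
          rw [sum_add_distrib, ← mul_sum, ← mul_sum]
          have a1 := h.m0 t htN i hi n hn m' (hmem m' hm')
          have a2 := h.m1 t htN i hi n hn m' (hmem m' hm')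
          linarith
        refine (sum_le_sum h1).trans (le_of_eq ?_)
        rw [sum_const, nsmul_eq_mul, card_iv']
        ring
      unfold zn
      refine (Real.sum_sqrt_mul_sqrt_le _ (fun x0 => ms_nonneg ..) fun x0 => ms_nonneg ..).trans ?_
      rw [e8]
      have θ2 : √2 ^ j * √2 ^ j = (2 : ℝ) ^ j := by
        rw [← mul_pow, Real.mul_self_sqrt (by norm_num)]
      have h8 : (0 : ℝ) ≤ 8 ^ t := by positivity
      have hP : 0 ≤ 4 * mu * √2 ^ j * (8 ^ t * ν) := by positivity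
      rw [← Real.sqrt_mul (sum_nonneg fun _ _ => ms_nonneg ..)]
      refine Real.sqrt_le_iff.2 ⟨hP, ?_⟩
      refine (mul_le_mul hD hS (sum_nonneg fun _ _ => ms_nonneg ..) (by positivity)).trans ?_
      rw [← θ2]
      have h5 := mul_le_mul_of_nonneg_left νν
        (by positivity : 0 ≤ (4 * mu * 8 ^ t * √2 ^ j) * (4 * mu * 8 ^ t * √2 ^ j))
      refine le_trans (le_of_eq ?_) (h5.trans (le_of_eq ?_)) <;> ring
    -- all cells
    unfold zk
    have e3 : ∑ x0 ∈ iv t i, ∑ m ∈ iv (N - (t + j)) S, ∑ n ∈ iv (N - t) R,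
        zn t (t + j) (f x0 t) (f x0 (t + 1)) n m = ∑ n ∈ iv (N - t) R, ∑ m ∈ iv (N - (t + j)) S,
        ∑ x0 ∈ iv t i, zn t (t + j) (f x0 t) (f x0 (t + 1)) n m := by
      rw [sum_comm]
      have e4 : ∀ m ∈ iv (N - (t + j)) S, ∑ x0 ∈ iv t i, ∑ n ∈ iv (N - t) R,
          zn t (t + j) (f x0 t) (f x0 (t + 1)) n m = ∑ n ∈ iv (N - t) R, ∑ x0 ∈ iv t i,
          zn t (t + j) (f x0 t) (f x0 (t + 1)) n m := fun m _ => sum_comm
      rw [sum_congr rfl e4, sum_comm]
    rw [e3, mul_sum]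
    refine sum_le_sum fun n hn => (sum_le_sum fun m hm => cell n hn m hm).trans (le_of_eq ?_)
    rw [← mul_sum, sum_iv_iv j (N - (t + j)) S fun m' => if Q t i n m' then (8 : ℝ) ^ t else 0,
      show N - (t + j) + j = N - t by omega]
  refine (sum_le_sum one).trans ?_
  rw [← mul_sum]
  refine mul_le_mul_of_nonneg_left ?_ (by positivity)
  unfold pk3
  refine sum_le_sum_of_subset_of_nonneg (fun t ht => ?_) fun t _ _ => ?_
  · rw [mem_Ico] at ht
    rw [mem_range]
    omega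
  · exact sum_nonneg fun _ _ => sum_nonneg fun _ _ => sum_nonneg fun _ _ => by
      split_ifs <;> positivity

end

end Vale.Agent.P141.H352
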